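import Mathlib

/-!
# Statement: Griffiths' positivity conjecture fails

Holomorphic vector bundles are Mathlib vector bundle cores with holomorphic transition maps, Hermitian
metrics are Gram matrices in all frames, curvature is the Chern curvature, and ampleness says that
sections of some `O(m)` embed the bundle `P(E)` of one-dimensional quotients in projective space.
-/

noncomputable section
namespace Vale.Agent.P296
open scoped Manifold ContDiff
open Matrix
open scoped ComplexOrder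

variable {n r : ℕ}
/-- Complex coordinate space. -/
abbrev Cn (n : ℕ) := EuclideanSpace ℂ (Fin n)

variable (n r) (X : Type) [TopologicalSpace X] [ChartedSpace (Cn n) X]

/-- A holomorphic vector bundle of rank r, as a cocycle. -/
structure HolBundle where
  ι : Type
  core : VectorBundleCore ℂ X (Cn r) ι
  hol : core.IsContMDiff 𝓘(ℂ, Cn n) ω

variable {n r X}

/-- Matrix of a transition map. -/
def HolBundle.g (E : HolBundle n r X) (a b : E.ι) (x : X) : Matrix (Fin r) (Fin r) ℂ :=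
  Matrix.of fun i j => E.core.coordChange a b x (EuclideanSpace.single j 1) i

/-- Smooth Hermitian metric: the Gram matrix in every frame. -/
structure HermMetric (E : HolBundle n r X) where
  h : E.ι → X → Matrix (Fin r) (Fin r) ℂ
  pos : ∀ a, ∀ x ∈ E.core.baseSet a, (h a x).PosDef
  compat : ∀ a b, ∀ x ∈ E.core.baseSet a ∩ E.core.baseSet b,
    h a x = (E.g a b x)ᴴ * h b x * E.g a b x
  smooth : ∀ a i j (p : X), ContDiffOn ℝ ∞
    (fun z => h a ((chartAt (Cn n) p).symm z) i j)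
    ((chartAt (Cn n) p).target ∩ (chartAt (Cn n) p).symm ⁻¹' E.core.baseSet a)

/-- Derivative in direction ξ of type (1,0). -/
def dz (f : Cn n → ℂ) (ξ z : Cn n) : ℂ :=
  (fderiv ℝ f z ξ - Complex.I * fderiv ℝ f z (Complex.I • ξ)) / 2

/-- Derivative in direction ξ of type (0,1). -/
def dzbar (f : Cn n → ℂ) (ξ z : Cn n) : ℂ :=
  (fderiv ℝ f z ξ + Complex.I * fderiv ℝ f z (Complex.I • ξ)) / 2

/-- Chern curvature `h ∘ ∂̄(h⁻¹ ∂h)` with the sign of Griffiths: `-∂̄∂h + ∂̄h h⁻¹ ∂h`. -/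
def chernForm (H : Cn n → Matrix (Fin r) (Fin r) ℂ) (ξ z : Cn n) : Matrix (Fin r) (Fin r) ℂ :=
  -(Matrix.of fun i j => dzbar (fun w => dz (fun y => H y i j) ξ w) ξ z)
    + (Matrix.of fun i j => dzbar (fun y => H y i j) ξ z) * (H z)⁻¹
      * (Matrix.of fun i j => dz (fun y => H y i j) ξ z)

/-- Strict Griffiths positivity of the Chern curvature. -/
def HermMetric.GriffithsPositive {E : HolBundle n r X} (h : HermMetric E) : Prop :=
  ∀ a, ∀ x ∈ E.core.baseSet a, ∀ ξ : Cn n, ξ ≠ 0 → ∀ v : Fin r → ℂ, v ≠ 0 →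
    0 < (star v ⬝ᵥ (chernForm (fun z => h.h a ((chartAt (Cn n) x).symm z)) ξ
      (chartAt (Cn n) x x) *ᵥ v)).re

/-- A section of O(m) on the bundle of one-dimensional quotients: homogeneous polynomials on
the dual fibres, holomorphic and compatible. -/
structure SymSection (E : HolBundle n r X) (m : ℕ) where
  P : E.ι → X → (Fin r → ℂ) → ℂ
  homog : ∀ a, ∀ x ∈ E.core.baseSet a, ∃ p : MvPolynomial (Fin r) ℂ,
    p.IsHomogeneous m ∧ ∀ η, P a x η = MvPolynomial.eval η p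
  compat : ∀ a b, ∀ x ∈ E.core.baseSet a ∩ E.core.baseSet b, ∀ η,
    P b x η = P a x (η ᵥ* E.g a b x)
  hol : ∀ a (p : X), DifferentiableOn ℂ
    (fun w : Cn n × (Fin r → ℂ) => P a ((chartAt (Cn n) p).symm w.1) w.2)
    (((chartAt (Cn n) p).target ∩ (chartAt (Cn n) p).symm ⁻¹' E.core.baseSet a) ×ˢ Set.univ)

/-- O(1) on P(E) is ample: sections of some O(m) embed P(E) in projective space. -/
def Ample (E : HolBundle n r X) : Prop :=
  ∃ (m N : ℕ) (s : Fin N → SymSection E m), 0 < m ∧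
    (∀ a, ∀ x ∈ E.core.baseSet a, ∀ η : Fin r → ℂ, η ≠ 0 → ∃ k, (s k).P a x η ≠ 0) ∧
    (∀ a b, ∀ x ∈ E.core.baseSet a, ∀ y ∈ E.core.baseSet b, ∀ η ζ : Fin r → ℂ,
      η ≠ 0 → ζ ≠ 0 → ∀ c : ℂ, (∀ k, (s k).P b y ζ = c * (s k).P a x η) →
      x = y ∧ ∃ t : ℂ, ζ ᵥ* E.g a b x = t • η) ∧
    ∀ a, ∀ x ∈ E.core.baseSet a, ∀ η : Fin r → ℂ, η ≠ 0 →
      ∀ (ξ : Cn n) (ν : Fin r → ℂ) (c : ℂ),
      (∀ k, fderiv ℂ (fun w : Cn n × (Fin r → ℂ) =>
          (s k).P a ((chartAt (Cn n) x).symm w.1) w.2) (chartAt (Cn n) x x, η) (ξ, ν)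
        = c * (s k).P a x η) →
      ξ = 0 ∧ ∃ t : ℂ, ν = t • η

/-- The negation of Q1. -/
def GriffithsFails : Prop :=
  ∃ (n r : ℕ) (X : Type) (_ : TopologicalSpace X) (_ : T2Space X) (_ : CompactSpace X)
    (_ : ConnectedSpace X) (_ : ChartedSpace (Cn n) X) (_ : IsManifold 𝓘(ℂ, Cn n) ω X),
    (∃ L : HolBundle n 1 X, Ample L) ∧ 0 < r ∧
    ∃ E : HolBundle n r X, Ample E ∧ ∀ h : HermMetric E, ¬ h.GriffithsPositive

end Vale.Agent.P296
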