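import Mathlib

/-!
# P296: periodic functions of polynomial growth which stay subharmonic after exponential twists

Such a function is constant: on a horizontal strip the maximum is attained on the edges, so the
maximum over a horizontal line does not depend on the line, and a global maximum propagates along
circles.
-/

noncomputable section

namespace Vale.Agent.P296

open MeasureTheory Metric Real Filter Topology

/-- The sub-mean value inequality on every circle. -/
def SubMean (f : ℂ → ℝ) : Prop := ∀ c r, 0 < r → f c ≤ circleAverage f c r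

/-- An upper semicontinuous nonnegative function is integrable on circles. -/
lemma circleIntegrable_usc {f : ℂ → ℝ} (hf : UpperSemicontinuous f) (h0 : ∀ z, 0 ≤ f z) (c : ℂ)
    (r : ℝ) : CircleIntegrable f c r := by
  have hg : UpperSemicontinuous fun θ : ℝ => f (circleMap c r θ) :=
    fun θ y hy => (continuous_circleMap c r).tendsto θ |>.eventually (hf _ y hy)
  obtain ⟨θ₀, -, hmax⟩ := (hg.upperSemicontinuousOn _).exists_isMaxOn
    (Set.nonempty_Icc.2 (by positivity : (0 : ℝ) ≤ 2 * π)) isCompact_Icc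
  rw [CircleIntegrable, intervalIntegrable_iff_integrableOn_Icc_of_le (by positivity)]
  refine Measure.integrableOn_of_bounded (M := f (circleMap c r θ₀)) measure_Icc_lt_top.ne
    hg.measurable.aestronglyMeasurable ?_
  filter_upwards [ae_restrict_mem measurableSet_Icc] with θ hθ
  rw [Real.norm_eq_abs, abs_of_nonneg (h0 _)]
  exact hmax hθ

/-- A maximum at the centre of a circle is taken on the whole circle. -/
lemma eq_of_max_center {f : ℂ → ℝ} (hf : UpperSemicontinuous f) (h0 : ∀ z, 0 ≤ f z)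
    (hs : SubMean f) {c : ℂ} {r : ℝ} (hr : 0 < r) (hmax : ∀ z ∈ sphere c r, f z ≤ f c) :
    ∀ θ : ℝ, f (circleMap c r θ) = f c := by
  set g : ℝ → ℝ := fun θ => f (circleMap c r θ) with hgdef
  have hper : Function.Periodic g (2 * π) := fun θ => congrArg f (periodic_circleMap c r θ)
  suffices h : ∀ θ ∈ Set.Ico 0 (2 * π), g θ = f c by
    intro θ
    obtain ⟨θ', hθ', e⟩ := hper.exists_mem_Ico₀ (by positivity) θ
    exact e.trans (h θ' hθ')
  have hg : UpperSemicontinuous g :=
    fun θ y hy => (continuous_circleMap c r).tendsto θ |>.eventually (hf _ y hy)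
  have hle : ∀ θ, g θ ≤ f c := fun θ => hmax _ (circleMap_mem_sphere c hr.le θ)
  have hint : IntervalIntegrable g volume 0 (2 * π) := circleIntegrable_usc hf h0 c r
  have hd : IntervalIntegrable (fun θ => f c - g θ) volume 0 (2 * π) :=
    intervalIntegrable_const.sub hint
  have hzero : ∫ θ in (0 : ℝ)..2 * π, (f c - g θ) = 0 := by
    refine le_antisymm ?_ (intervalIntegral.integral_nonneg (by positivity) fun θ _ =>
      sub_nonneg.2 (hle θ))
    have h1 := hs c r hr
    rw [circleAverage_def, smul_eq_mul, ← div_eq_inv_mul, le_div_iff₀ (by positivity)] at h1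
    rw [intervalIntegral.integral_sub intervalIntegrable_const hint, intervalIntegral.integral_const,
      smul_eq_mul, sub_zero]
    linarith
  have hae := (intervalIntegral.integral_eq_zero_iff_of_nonneg_ae
    (Eventually.of_forall fun θ => sub_nonneg.2 (hle θ)) hd).1 hzero
  intro θ hθ
  by_contra hne
  have hlt : g θ < f c := lt_of_le_of_ne (hle θ) hne
  obtain ⟨ε, hε, hball⟩ := Metric.mem_nhds_iff.1 (hg θ (f c) hlt)
  set η : ℝ := min ε (2 * π - θ)
  have hη : 0 < η := lt_min hε (by linarith [hθ.2])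
  have hsub : Set.Ioo θ (θ + η) ⊆
      {x | ¬(fun x => f c - g x) x = (0 : ℝ → ℝ) x} ∩ Set.Ioc 0 (2 * π) := fun x hx => by
    have h1 : g x < f c := hball (by
      rw [mem_ball, Real.dist_eq, abs_of_pos (by linarith [hx.1])]
      linarith [hx.2, min_le_left ε (2 * π - θ)])
    refine ⟨fun e => h1.ne ?_, by linarith [hx.1, hθ.1],
      by linarith [hx.2, min_le_right ε (2 * π - θ)]⟩
    simp only [Pi.zero_apply] at e
    linarith
  rw [Set.union_eq_self_of_subset_right (by rw [Set.Ioc_eq_empty (by linarith [pi_pos])]; simp),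
    EventuallyEq, ae_iff, Measure.restrict_apply' measurableSet_Ioc] at hae
  have h2 := measure_mono (μ := volume) hsub
  rw [hae, Real.volume_Ioo, nonpos_iff_eq_zero, ENNReal.ofReal_eq_zero] at h2
  linarith

/-- The imaginary part of a point of a circle. -/
lemma circleMap_im (c : ℂ) (r θ : ℝ) : (circleMap c r θ).im = c.im + r * Real.sin θ := by
  simp [circleMap]

/-- On a horizontal strip the maximum is attained on an edge. -/
lemma le_of_le_edges {f : ℂ → ℝ} (hf : UpperSemicontinuous f) (h0 : ∀ z, 0 ≤ f z) (hs : SubMean f)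
    (hp : ∀ z, f (z + 1) = f z) {a b M : ℝ} (hab : a ≤ b) (hedge : ∀ z : ℂ, z.im = a ∨ z.im = b → f z ≤ M)
    {z : ℂ} (hz : z.im ∈ Set.Icc a b) : f z ≤ M := by
  set K := Set.Icc (0 : ℝ) 1 ×ℂ Set.Icc a b
  have hK : IsCompact K := isCompact_Icc.reProdIm isCompact_Icc
  obtain ⟨z₀, hz₀, hmax⟩ := (hf.upperSemicontinuousOn K).exists_isMaxOn
    ⟨(a : ℂ) * Complex.I, by simp [K, Complex.mem_reProdIm, hab]⟩ hK
  have hred : ∀ w : ℂ, w.im ∈ Set.Icc a b → f w ≤ f z₀ := fun w hw => by
    have e : f (w - (⌊w.re⌋ : ℂ)) = f w := by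
      have hint : Function.Periodic f 1 := hp
      simpa using (hint.int_mul ⌊w.re⌋).sub_eq w
    rw [← e]
    refine hmax ⟨⟨by simp, ?_⟩, by simpa using hw⟩
    simp only [Complex.sub_re, Complex.intCast_re]
    linarith [Int.lt_floor_add_one w.re]
  refine (hred z hz).trans ?_
  have him : z₀.im ∈ Set.Icc a b := hz₀.2
  rcases eq_or_lt_of_le him.1 with h | h
  · exact hedge _ (Or.inl h.symm)
  rcases eq_or_lt_of_le him.2 with h' | h'
  · exact hedge _ (Or.inr h')
  set r := min (z₀.im - a) (b - z₀.im)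
  have hr : 0 < r := lt_min (by linarith) (by linarith)
  have hra : r ≤ z₀.im - a := min_le_left _ _
  have hrb : r ≤ b - z₀.im := min_le_right _ _
  have hall := eq_of_max_center hf h0 hs (c := z₀) hr fun w hw => hred w (by
    have h1 := Complex.abs_im_le_norm (w - z₀)
    rw [mem_sphere_iff_norm.1 hw, Complex.sub_im, abs_le] at h1
    exact ⟨by linarith, by linarith⟩)
  rcases min_cases (z₀.im - a) (b - z₀.im) with ⟨e, -⟩ | ⟨e, -⟩
  · rw [← hall (-(π / 2))]
    refine hedge _ (Or.inl ?_)
    rw [circleMap_im, Real.sin_neg, Real.sin_pi_div_two]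
    have : r = z₀.im - a := e
    linarith
  · rw [← hall (π / 2)]
    refine hedge _ (Or.inr ?_)
    rw [circleMap_im, Real.sin_pi_div_two]
    have : r = b - z₀.im := e
    linarith

/-- The twists by `exp (t Im)` for one real `t`. -/
lemma usc_twist {f : ℂ → ℝ} (hf : UpperSemicontinuous f) (h0 : ∀ z, 0 ≤ f z) (t : ℝ) :
    UpperSemicontinuous fun z => f z * Real.exp (t * z.im) := by
  intro z y hy
  obtain ⟨y', h1, h2⟩ := exists_between (show f z < y / Real.exp (t * z.im) from
    (lt_div_iff₀ (Real.exp_pos _)).2 hy)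
  have hy' : 0 < y' := (h0 z).trans_lt h1
  have hc : ∀ᶠ w in 𝓝 z, y' * Real.exp (t * w.im) < y :=
    (Continuous.tendsto (by fun_prop) z).eventually
      (gt_mem_nhds ((lt_div_iff₀ (Real.exp_pos _)).1 h2))
  filter_upwards [hc, hf z y' h1] with w hw hw'
  exact (mul_le_mul_of_nonneg_right hw'.le (Real.exp_pos _).le).trans_lt hw

/-- A periodic function of polynomial growth which stays subharmonic after exponential twists is
constant. -/
theorem periodic_const {f : ℂ → ℝ} (hf : UpperSemicontinuous f) (h0 : ∀ z, 0 ≤ f z)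
    (hp : ∀ z, f (z + 1) = f z)
    (hs : ∀ t : ℝ, SubMean fun z => f z * Real.exp (t * z.im)) {A : ℝ} {k : ℕ}
    (hA : ∀ z : ℂ, f z ≤ A * (1 + |z.im|) ^ k) : ∀ z w, f z = f w := by
  have hA0 : 0 ≤ A := by simpa using (h0 0).trans (hA 0)
  have key : ∀ (s : ℝ), s = 1 ∨ s = -1 → ∀ (y M : ℝ), (∀ z : ℂ, z.im = y → f z ≤ M) →
      ∀ z : ℂ, 0 ≤ s * (z.im - y) → f z ≤ M := by
    intro s hs1 y M hM z hz
    have hM0 : 0 ≤ M := (h0 _).trans (hM ((y : ℂ) * Complex.I) (by simp))
    have hlim : Tendsto (fun ε => (M + ε) * Real.exp (ε * (s * (z.im - y)))) (𝓝[>] (0 : ℝ)) (𝓝 M) := by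
      have : Continuous fun ε => (M + ε) * Real.exp (ε * (s * (z.im - y))) := by fun_prop
      simpa using (this.tendsto 0).mono_left nhdsWithin_le_nhds
    refine ge_of_tendsto hlim ?_
    filter_upwards [self_mem_nhdsWithin] with ε (hε : 0 < ε)
    -- the twist by `exp (-ε s Im)` kills the polynomial growth
    have hpoly : Tendsto (fun x : ℝ => A * (1 + |y| + x) ^ k * Real.exp (-ε * x)) atTop (𝓝 0) := by
      have h1 := ((tendsto_pow_mul_exp_neg_atTop_nhds_zero k).comp
        (Tendsto.const_mul_atTop hε (tendsto_atTop_add_const_left atTop (1 + |y|) tendsto_id))).const_mul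
        (A * Real.exp (ε * (1 + |y|)) / ε ^ k)
      rw [mul_zero] at h1
      refine h1.congr fun x => ?_
      simp only [Function.comp_apply, id_eq]
      rw [show -ε * x = ε * (1 + |y|) + -(ε * (1 + |y| + x)) by ring, Real.exp_add, mul_pow]
      field_simp
    obtain ⟨R, hR, hRz⟩ := ((hpoly.eventually (ge_mem_nhds (show (0 : ℝ) < M + ε by linarith))).and
      (eventually_ge_atTop (s * (z.im - y)))).exists
    have hR0 : 0 ≤ R := hz.trans hRz
    have hss : s * s = 1 := by rcases hs1 with rfl | rfl <;> norm_num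
    set t := -ε * s with ht
    have hedge : ∀ w : ℂ, w.im = y ∨ w.im = y + s * R →
        f w * Real.exp (t * w.im) ≤ (M + ε) * Real.exp (t * y) := by
      rintro w (hw | hw)
      · rw [hw]
        exact mul_le_mul_of_nonneg_right ((hM w hw).trans (by linarith)) (Real.exp_pos _).le
      · have h1 : |w.im| ≤ |y| + R := by
          rw [hw]
          refine (abs_add_le _ _).trans ?_
          rcases hs1 with rfl | rfl <;> simp [abs_of_nonneg hR0]
        have h2 : f w ≤ A * (1 + |y| + R) ^ k := (hA w).trans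
          (mul_le_mul_of_nonneg_left (pow_le_pow_left₀ (by positivity) (by linarith) k) hA0)
        rw [hw, show t * (y + s * R) = -ε * R + t * y by rw [ht]; linear_combination (-ε * R) * hss,
          Real.exp_add, ← mul_assoc]
        exact mul_le_mul_of_nonneg_right
          ((mul_le_mul_of_nonneg_right h2 (Real.exp_pos _).le).trans hR) (Real.exp_pos _).le
    have hp' : ∀ w : ℂ, f (w + 1) * Real.exp (t * (w + 1).im) = f w * Real.exp (t * w.im) := by
      simp [hp]
    have main : f z * Real.exp (t * z.im) ≤ (M + ε) * Real.exp (t * y) := by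
      have h0' : ∀ w : ℂ, 0 ≤ f w * Real.exp (t * w.im) :=
        fun w => mul_nonneg (h0 w) (Real.exp_pos _).le
      rcases hs1 with rfl | rfl
      · exact le_of_le_edges (usc_twist hf h0 t) h0' (hs t) hp' (a := y) (b := y + 1 * R)
          (by linarith) hedge ⟨by linarith, by linarith⟩
      · exact le_of_le_edges (usc_twist hf h0 t) h0' (hs t) hp' (a := y + -1 * R) (b := y)
          (by linarith) (fun w hw => hedge w hw.symm) ⟨by linarith, by linarith⟩
    refine le_of_mul_le_mul_right (main.trans_eq ?_) (Real.exp_pos (t * z.im))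
    rw [ht, mul_assoc (M + ε), ← Real.exp_add]
    ring_nf
  have hline : ∀ y, ∃ z₀ : ℂ, z₀.im = y ∧ ∀ z : ℂ, z.im = y → f z ≤ f z₀ := fun y => by
    obtain ⟨x, -, hx⟩ := ((hf.comp (g := fun x : ℝ => (x : ℂ) + y * Complex.I)
      (by fun_prop)).upperSemicontinuousOn (Set.Icc 0 1)).exists_isMaxOn
      (Set.nonempty_Icc.2 zero_le_one) isCompact_Icc
    refine ⟨(x : ℂ) + y * Complex.I, by simp, fun z hz => ?_⟩
    have hint : Function.Periodic f 1 := hp
    have e : f (z - (⌊z.re⌋ : ℂ)) = f z := by simpa using (hint.int_mul ⌊z.re⌋).sub_eq z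
    have e' : z - (⌊z.re⌋ : ℂ) = ((z.re - ⌊z.re⌋ : ℝ) : ℂ) + y * Complex.I := by
      apply Complex.ext <;> simp [hz]
    rw [← e, e']
    exact hx ⟨by linarith [Int.floor_le z.re], by linarith [Int.lt_floor_add_one z.re]⟩
  obtain ⟨z₀, hz₀, hmax⟩ := hline 0
  have hglob : ∀ z, f z ≤ f z₀ := fun z => by
    rcases le_total 0 z.im with h | h
    · exact key 1 (Or.inl rfl) 0 _ hmax z (by linarith)
    · exact key (-1) (Or.inr rfl) 0 _ hmax z (by linarith)
  have hs0 : SubMean f := by simpa using hs 0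
  suffices h : ∀ z, f z = f z₀ from fun z w => (h z).trans (h w).symm
  intro z
  rcases eq_or_ne z z₀ with rfl | hne
  · rfl
  have hr : 0 < ‖z - z₀‖ := norm_pos_iff.2 (sub_ne_zero.2 hne)
  have h := eq_of_max_center hf h0 hs0 hr (fun w _ => hglob w) (Complex.arg (z - z₀))
  rw [← h]
  congr 1
  rw [circleMap, Complex.norm_mul_exp_arg_mul_I]
  ring

/-- On the plane with the periods `(1, 0)` and `(τ, 1)` the twisted subharmonic functions of
polynomial growth are constant. -/
theorem biperiodic_const {f : ℂ × ℂ → ℝ} {τ : ℂ} (hf : UpperSemicontinuous f) (h0 : ∀ p, 0 ≤ f p)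
    (hp₁ : ∀ p, f (p + (1, 0)) = f p) (hp₂ : ∀ p, f (p + (τ, 1)) = f p)
    (hs : ∀ (p v : ℂ × ℂ) (t : ℝ), SubMean fun ζ => f (p + ζ • v) * Real.exp (t * ζ.im))
    {A : ℝ} {k : ℕ} (hA : ∀ p, f p ≤ A * (1 + |p.1.im| + ‖p.2‖) ^ k) : ∀ p q, f p = f q := by
  have hA0 : 0 ≤ A := by simpa using (h0 0).trans (hA 0)
  have hw : ∀ u w w', f (w, u) = f (w', u) := fun u => by
    refine periodic_const (hf.comp (g := fun w : ℂ => (w, u)) (by fun_prop)) (fun w => h0 _)
      (fun w => by simpa using hp₁ (w, u))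
      (fun t => by simpa using hs (0, u) (1, 0) t)
      (A := A * (1 + ‖u‖) ^ k) (k := k) (fun w => (hA (w, u)).trans ?_)
    rw [mul_assoc, ← mul_pow]
    refine mul_le_mul_of_nonneg_left (pow_le_pow_left₀ (by positivity) ?_ k) hA0
    dsimp only
    nlinarith [abs_nonneg w.im, norm_nonneg u]
  have hper : Function.Periodic (fun u : ℂ => f (0, u)) 1 := fun u => by
    show f (0, u + 1) = f (0, u)
    rw [hw (u + 1) 0 (0 + τ), ← hp₂ (0, u)]
    rfl
  have hu : ∀ u u', f (0, u) = f (0, u') := by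
    refine periodic_const (f := fun u => f (0, u)) (hf.comp (g := fun u : ℂ => ((0 : ℂ), u))
      (by fun_prop)) (fun u => h0 _) hper (fun t => by simpa using hs (0, 0) (0, 1) t)
      (A := A * 2 ^ k) (k := k) fun u => ?_
    show f (0, u) ≤ _
    rw [show f (0, u) = f (0, u - (⌊u.re⌋ : ℂ)) by simpa using ((hper.int_mul ⌊u.re⌋).sub_eq u).symm,
      mul_assoc, ← mul_pow]
    refine (hA _).trans (mul_le_mul_of_nonneg_left (pow_le_pow_left₀ (by positivity) ?_ k) hA0)
    have h1 := Complex.norm_le_abs_re_add_abs_im (u - (⌊u.re⌋ : ℂ))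
    simp only [Complex.sub_re, Complex.intCast_re, Complex.sub_im, Complex.intCast_im, sub_zero,
      abs_of_nonneg (sub_nonneg.2 (Int.floor_le u.re))] at h1
    simp only [Complex.zero_im, abs_zero, add_zero]
    linarith [Int.lt_floor_add_one u.re, abs_nonneg u.im]
  exact fun p q => (hw p.2 p.1 0).trans ((hu p.2 q.2).trans (hw q.2 0 q.1))

/-- The same with the periods `(1, 0)` and `(τ, κ)`. -/
theorem biperiodic_const' {f : ℂ × ℂ → ℝ} {τ κ : ℂ} (hκ : κ ≠ 0) (hf : UpperSemicontinuous f)
    (h0 : ∀ p, 0 ≤ f p) (hp₁ : ∀ p, f (p + (1, 0)) = f p) (hp₂ : ∀ p, f (p + (τ, κ)) = f p)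
    (hs : ∀ (p v : ℂ × ℂ) (t : ℝ), SubMean fun ζ => f (p + ζ • v) * Real.exp (t * ζ.im))
    {A : ℝ} {k : ℕ} (hA : ∀ p, f p ≤ A * (1 + |p.1.im| + ‖p.2‖) ^ k) : ∀ p q, f p = f q := by
  have hA0 : 0 ≤ A := by simpa using (h0 0).trans (hA 0)
  set L : ℂ × ℂ → ℂ × ℂ := fun p => (p.1, κ * p.2) with hL
  have hLa : ∀ p v, L (p + v) = L p + L v := fun p v => by simp [hL, mul_add]
  have h := biperiodic_const (τ := τ) (hf.comp (g := L) (by fun_prop)) (fun p => h0 _)
    (fun p => by simpa [hLa, hL] using hp₁ (L p)) (fun p => by simpa [hLa, hL, mul_add] using hp₂ (L p))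
    (fun p v t => by simpa [hLa, hL, mul_left_comm, mul_add] using hs (L p) (L v) t)
    (A := A * (1 + ‖κ‖) ^ k) (k := k) (fun p => (hA (L p)).trans (by
      rw [mul_assoc, ← mul_pow]
      refine mul_le_mul_of_nonneg_left (pow_le_pow_left₀ (by positivity) ?_ k) hA0
      simp only [hL, norm_mul]
      nlinarith [norm_nonneg κ, norm_nonneg p.2, abs_nonneg p.1.im]))
  intro p q
  simpa [hL, mul_div_cancel₀ _ hκ] using h (p.1, p.2 / κ) (q.1, q.2 / κ)

end Vale.Agent.P296
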