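import Vale.Agent.P296.Model.Inst
import Vale.Agent.P296.NoMetric.Family
import Vale.Agent.P296.Ample.UpSection
import Vale.Agent.P296.Ample.Move

/-!
# P296: assembly

The statement `GriffithsFails` from the five targets of DESIGN.md: no positive family upstairs for
large `q`, embedding sections upstairs for one `τ`, the two bridges, and an ample line bundle
on the surface. The targets are parameters here; this file is not a result by itself.
-/

noncomputable section

namespace Vale.Agent.P296.Assembly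

open Model
open NoMetric (PosFamily)
open Ample (UpSection Embeds)

/-- Target: no positive family upstairs for large `q`. -/
def NoFamilyTarget : Prop :=
  ∀ {τ : ℂ}, 0 < τ.im → ∃ q₀ : ℕ, ∀ q, q₀ ≤ q → IsEmpty (PosFamily τ q)

/-- Target: sections upstairs embed, for one `τ` and every `q`. -/
def EmbedsTarget : Prop :=
  ∃ τ : ℂ, 0 < τ.im ∧ ∀ q : ℕ, 0 < q →
    ∃ (k N : ℕ) (S : Fin N → UpSection τ q k), 0 < k ∧ Embeds S

/-- Target: a Griffiths positive metric gives a positive family upstairs. -/
def MetricBridge : Prop :=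
  ∀ (τ : ℂ) (hτ : 0 < τ.im) (q : ℕ) (hq : 0 < q),
    ∀ h : HermMetric (Surf.bundle (modelData τ hτ q hq)),
      h.GriffithsPositive → Nonempty (PosFamily τ q)

/-- Target: embedding sections upstairs make the bundle ample. -/
def AmpleBridge : Prop :=
  ∀ (τ : ℂ) (hτ : 0 < τ.im) (q : ℕ) (hq : 0 < q) (k N : ℕ) (S : Fin N → UpSection τ q k),
    0 < k → Embeds S → Vale.Agent.P296.Ample (Surf.bundle (modelData τ hτ q hq))

/-- Target: the surface is projective. -/
def Projective : Prop :=
  ∀ (τ : ℂ) (hτ : 0 < τ.im) (q : ℕ) (hq : 0 < q),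
    ∃ L : HolBundle 2 1 (Surf (modelData τ hτ q hq)), Vale.Agent.P296.Ample L

/-- The data matches the frozen interface. -/
lemma modelData_matches (τ : ℂ) (hτ : 0 < τ.im) (q : ℕ) (hq : 0 < q) :
    Ample.Matches (modelData τ hτ q hq) τ q :=
  ⟨rfl, fun _ => rfl, rfl, mq_eq_exp τ q, eP_eq_exp τ q⟩

/-- The assembly. -/
theorem griffithsFails_of (hN : NoFamilyTarget) (hS : EmbedsTarget) (hM : MetricBridge)
    (hA : AmpleBridge) (hP : Projective) : GriffithsFails := by
  obtain ⟨τ, hτ, hS⟩ := hS
  obtain ⟨q₀, hN⟩ := hN hτ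
  have hq : 0 < q₀ + 1 := q₀.succ_pos
  obtain ⟨k, N, S, hk, hE⟩ := hS (q₀ + 1) hq
  refine ⟨2, 7, Surf (modelData τ hτ (q₀ + 1) hq), inferInstance, inferInstance, inferInstance,
    inferInstance, inferInstance, inferInstance, hP τ hτ _ hq, by norm_num, _,
    hA τ hτ _ hq k N S hk hE, fun h hpos => ?_⟩
  obtain ⟨F⟩ := hM τ hτ _ hq h hpos
  exact (hN _ (Nat.le_succ _)).false F

end Vale.Agent.P296.Assembly
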