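import Vale.Agent.P296.Jet

/-!
# Nonnegative Chern curvature makes dual norms of holomorphic sections subharmonic

A metric is a Gram matrix `H` in a holomorphic frame, `h(u, v) = u* H v`. Its curvature form on
`(ξ, u)` is `u* (∂̄H · H⁻¹ · ∂H − ∂̄∂H) u` with the derivatives in the direction `ξ`. The squared dual
norm `f = τ H⁻¹ τ̄` of a holomorphic coefficient row `τ` dominates `|τ·u|² / |u|²`, with equality at
the point for `u = H⁻¹ τ̄`; an affine `u` which is flat to first order there gives `Δf ≥ 0`.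
-/

noncomputable section

namespace Vale.Agent.P296

open Matrix Filter Topology
open scoped ComplexOrder ComplexConjugate

universe u v

variable {E : Type u} [NormedAddCommGroup E] [NormedSpace ℂ E] {ι : Type v} [Fintype ι]

/-- The derivative of the Gram matrix, entrywise. -/
def dMat (H : E → Matrix ι ι ℂ) (z a : E) : Matrix ι ι ℂ :=
  Matrix.of fun i j => fderiv ℝ (fun w => H w i j) z a

/-- The second derivative of the Gram matrix, entrywise. -/
def d2Mat (H : E → Matrix ι ι ℂ) (z a : E) : Matrix ι ι ℂ :=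
  Matrix.of fun i j => d2 (fun w => H w i j) z a

/-- `∂H` in the direction `ξ`. -/
def dH (H : E → Matrix ι ι ℂ) (z ξ : E) : Matrix ι ι ℂ :=
  (1 / 2 : ℂ) • (dMat H z ξ - Complex.I • dMat H z (Complex.I • ξ))

/-- `∂̄H` in the direction `ξ`. -/
def dbH (H : E → Matrix ι ι ℂ) (z ξ : E) : Matrix ι ι ℂ :=
  (1 / 2 : ℂ) • (dMat H z ξ + Complex.I • dMat H z (Complex.I • ξ))

/-- `∂̄∂H` in the direction `ξ`. -/
def ddH (H : E → Matrix ι ι ℂ) (z ξ : E) : Matrix ι ι ℂ :=
  (1 / 4 : ℂ) • (d2Mat H z ξ + d2Mat H z (Complex.I • ξ))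

/-- The curvature form of the Chern connection on `(ξ, u)`. -/
def curvForm [DecidableEq ι] (H : E → Matrix ι ι ℂ) (z ξ : E) (u : ι → ℂ) : ℝ :=
  (star u ⬝ᵥ ((dbH H z ξ * (H z)⁻¹ * dH H z ξ - ddH H z ξ) *ᵥ u)).re

/-- The squared dual norm of the coefficient row `τ`. -/
def dualSq [DecidableEq ι] (H : E → Matrix ι ι ℂ) (τ : E → ι → ℂ) (z : E) : ℝ :=
  (τ z ⬝ᵥ ((H z)⁻¹ *ᵥ star (τ z))).re

/-- The sesquilinear form of a matrix. -/
def bil (M : Matrix ι ι ℂ) (x y : ι → ℂ) : ℂ := star x ⬝ᵥ (M *ᵥ y)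

lemma bil_eq_sum (M : Matrix ι ι ℂ) (x y : ι → ℂ) :
    bil M x y = ∑ i, ∑ j, conj (x i) * M i j * y j := by
  simp only [bil, dotProduct, Matrix.mulVec, Finset.mul_sum, mul_assoc, starRingEnd_apply,
    Pi.star_apply]

lemma bil_conj {M : Matrix ι ι ℂ} (hM : M.IsHermitian) (x y : ι → ℂ) :
    conj (bil M x y) = bil M y x := by
  rw [bil_eq_sum, bil_eq_sum, map_sum, Finset.sum_comm]
  simp only [map_sum]
  refine Finset.sum_congr rfl fun i _ => Finset.sum_congr rfl fun j _ => ?_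
  have e : conj (M i j) = M j i := hM.apply j i
  rw [map_mul, map_mul, e, Complex.conj_conj]
  ring

/-- The Cauchy-Schwarz inequality between a metric and its dual. -/
lemma norm_sq_dot_le [DecidableEq ι] {M : Matrix ι ι ℂ} (hM : M.PosDef) (t u : ι → ℂ) :
    ‖t ⬝ᵥ u‖ ^ 2 ≤ (t ⬝ᵥ (M⁻¹ *ᵥ star t)).re * (bil M u u).re := by
  rcases eq_or_ne t 0 with rfl | ht
  · simp
  set w := M⁻¹ *ᵥ star t with hw
  have hu : IsUnit M.det := (Matrix.isUnit_iff_isUnit_det M).1 hM.isUnit
  have hMw : M *ᵥ w = star t := by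
    rw [hw, Matrix.mulVec_mulVec, Matrix.mul_nonsing_inv _ hu, Matrix.one_mulVec]
  have hF : 0 < t ⬝ᵥ w := by
    simpa [hw] using hM.inv.dotProduct_mulVec_pos (star_ne_zero.2 ht)
  obtain ⟨hFre, hFim⟩ := Complex.pos_iff.1 hF
  set F := (t ⬝ᵥ w).re with hFd
  have hFc : t ⬝ᵥ w = (F : ℂ) := Complex.ext (by simp [F]) (by simp [hFim.symm])
  have e1 : bil M u w = conj (t ⬝ᵥ u) := by
    rw [bil, hMw, Matrix.star_dotProduct_star]; rfl
  have e2 : bil M w u = t ⬝ᵥ u := by rw [← bil_conj hM.isHermitian, e1, Complex.conj_conj]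
  have e3 : bil M w w = (F : ℂ) := by
    rw [bil, hMw, Matrix.star_dotProduct_star, hFc]; simp
  set p := t ⬝ᵥ u with hp
  have h0 := hM.posSemidef.dotProduct_mulVec_nonneg ((F : ℂ) • u - p • w)
  have e : star ((F : ℂ) • u - p • w) ⬝ᵥ (M *ᵥ ((F : ℂ) • u - p • w)) =
      (F : ℂ) * ((F : ℂ) * bil M u u - p * conj p) := by
    simp only [star_sub, star_smul, Matrix.mulVec_sub, Matrix.mulVec_smul, sub_dotProduct,
      dotProduct_sub, smul_dotProduct, dotProduct_smul, smul_eq_mul]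
    rw [show star u ⬝ᵥ (M *ᵥ u) = bil M u u from rfl, show star u ⬝ᵥ (M *ᵥ w) = bil M u w from rfl,
      show star w ⬝ᵥ (M *ᵥ u) = bil M w u from rfl, show star w ⬝ᵥ (M *ᵥ w) = bil M w w from rfl,
      e1, e2, e3]
    simp only [Complex.star_def, Complex.conj_ofReal]
    ring
  rw [e] at h0
  have h1 := (Complex.nonneg_iff.1 h0).1
  rw [Complex.re_ofReal_mul, Complex.sub_re, Complex.re_ofReal_mul,
    Complex.mul_conj, Complex.ofReal_re, Complex.normSq_eq_norm_sq] at h1
  nlinarith [(mul_nonneg_iff_of_pos_left hFre).1 h1]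

/-- The jet of a sesquilinear form along affine vectors. -/
lemma jet_bil {H : ℝ → Matrix ι ι ℂ} {M D D' : Matrix ι ι ℂ}
    (hH : ∀ i j, Jet (fun s => H s i j) (M i j) (D i j) (D' i j)) (x y : ι → ℂ) :
    Jet (fun s : ℝ => bil (H s) (x + s • y) (x + s • y)) (bil M x x)
      (bil M y x + bil D x x + bil M x y)
      (bil D' x x + 2 * (bil D y x + bil D x y) + 2 * bil M y y) := by
  have hl : ∀ i, Jet (fun s : ℝ => (x + s • y) i) (x i) (y i) 0 := fun i => Jet.affine (x i) (y i)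
  have hc : ∀ i, Jet (fun s : ℝ => conj ((x + s • y) i)) (conj (x i)) (conj (y i)) 0 := fun i => by
    simpa using (hl i).map Complex.conjCLE.toContinuousLinearMap
  have hfun : (fun s : ℝ => bil (H s) (x + s • y) (x + s • y)) =
      fun s => ∑ i, ∑ j, conj ((x + s • y) i) * H s i j * (x + s • y) j :=
    funext fun s => bil_eq_sum _ _ _
  rw [hfun]
  have h := Jet.sum Finset.univ fun i _ => Jet.sum Finset.univ fun j _ =>
    ((hc i).mul (hH i j)).mul (hl j)
  simp only [bil_eq_sum, Finset.mul_sum, ← Finset.sum_add_distrib]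
  convert h using 1 <;> first
    | rfl
    | exact Finset.sum_congr rfl fun i _ => Finset.sum_congr rfl fun j _ => by ring

lemma line_tendsto (z a : E) : Tendsto (fun s : ℝ => z + s • a) (𝓝 0) (𝓝 z) := by
  simpa [Pi.add_def, Pi.smul_def'] using
        ((continuous_const (y := z)).add (continuous_id.smul (continuous_const (y := a)))).tendsto (0 : ℝ)

omit [Fintype ι] in
/-- Derivatives of a family of Hermitian matrices are Hermitian. -/
lemma dMat_isHermitian {H : E → Matrix ι ι ℂ} {z : E}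
    (hH : ∀ i j, ContDiffAt ℝ 2 (fun w => H w i j) z) (hherm : ∀ᶠ w in 𝓝 z, (H w).IsHermitian)
    (a : E) : (dMat H z a).IsHermitian ∧ (d2Mat H z a).IsHermitian := by
  have key : ∀ i j, conj (dMat H z a j i) = dMat H z a i j ∧
      conj (d2Mat H z a j i) = d2Mat H z a i j := fun i j => by
    have h1 : Jet (fun s : ℝ => conj (H (z + s • a) j i)) (conj (H z j i))
        (conj (dMat H z a j i)) (conj (d2Mat H z a j i)) :=
      (Jet.line (hH j i) a).map Complex.conjCLE.toContinuousLinearMap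
    have h2 := (Jet.line (hH i j) a).congr (h := fun s : ℝ => conj (H (z + s • a) j i))
      (((line_tendsto z a).eventually hherm).mono fun s hs => (hs.apply i j).symm)
    exact h1.unique h2
  exact ⟨Matrix.IsHermitian.ext fun i j => (key i j).1,
    Matrix.IsHermitian.ext fun i j => (key i j).2⟩

/-- The jet of a squared norm. -/
lemma jet_normSq {p : ℝ → ℂ} {a b c : ℂ} (hp : Jet p a b c) :
    Jet (fun s => ‖p s‖ ^ 2) (‖a‖ ^ 2) (2 * (conj a * b).re)
      (2 * ‖b‖ ^ 2 + 2 * (conj a * c).re) := by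
  have h := ((hp.map Complex.conjCLE.toContinuousLinearMap).mul hp).map Complex.reCLM
  have e : (fun s => Complex.reCLM (Complex.conjCLE.toContinuousLinearMap (p s) * p s)) =
      fun s => ‖p s‖ ^ 2 := funext fun s => by
    simp [← Complex.normSq_eq_conj_mul_self, Complex.normSq_eq_norm_sq, ← Complex.ofReal_pow]
  rw [e] at h
  convert h using 1
  · simp [← Complex.normSq_eq_conj_mul_self, Complex.normSq_eq_norm_sq, ← Complex.ofReal_pow]
  · simp [Complex.mul_re]; ring
  · rw [← Complex.normSq_eq_norm_sq, Complex.normSq_apply]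
    simp [Complex.mul_re]; ring

variable [DecidableEq ι]

lemma contDiffOn_det {U : Set E} {M : E → Matrix ι ι ℂ}
    (hM : ∀ i j, ContDiffOn ℝ 2 (fun w => M w i j) U) : ContDiffOn ℝ 2 (fun w => (M w).det) U := by
  simp only [Matrix.det_apply']
  exact ContDiffOn.sum fun σ _ => contDiffOn_const.mul (contDiffOn_prod fun i _ => hM _ i)

lemma contDiffOn_dualSq {U : Set E} {H : E → Matrix ι ι ℂ} {τ : E → ι → ℂ}
    (hH : ∀ i j, ContDiffOn ℝ 2 (fun w => H w i j) U) (hpos : ∀ w ∈ U, (H w).PosDef)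
    (hτ : ∀ i, ContDiffOn ℝ 2 (fun w => τ w i) U) : ContDiffOn ℝ 2 (dualSq H τ) U := by
  have hne : ∀ w ∈ U, (H w).det ≠ 0 := fun w hw => (hpos w hw).det_pos.ne'
  have hinv : ∀ i j, ContDiffOn ℝ 2 (fun w => (H w)⁻¹ i j) U := fun i j => by
    have hadj : ContDiffOn ℝ 2 (fun w => (H w).adjugate i j) U := by
      simp only [Matrix.adjugate_apply]
      refine contDiffOn_det fun k l => ?_
      simp only [Matrix.updateRow_apply]
      split_ifs
      · exact contDiffOn_const
      · exact hH k l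
    refine ((contDiffOn_det hH).inv hne |>.mul hadj).congr fun w _ => ?_
    simp [Matrix.inv_def, Ring.inverse_eq_inv']
  show ContDiffOn ℝ 2 (fun w => Complex.reCLM (∑ i, τ w i * ∑ j, (H w)⁻¹ i j * star (τ w j))) U
  refine Complex.reCLM.contDiff.comp_contDiffOn (ContDiffOn.sum fun i _ =>
    (hτ i).mul (ContDiffOn.sum fun j _ => (hinv i j).mul ?_))
  exact Complex.conjCLE.contDiff.comp_contDiffOn (hτ j)

/-- Nonnegative curvature makes the dual norm of a holomorphic row subharmonic along every complex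
direction. -/
theorem d2_dualSq_nonneg {U : Set E} (hU : IsOpen U) {H : E → Matrix ι ι ℂ} {τ : E → ι → ℂ}
    (hH : ∀ i j, ContDiffOn ℝ 2 (fun w => H w i j) U) (hpos : ∀ w ∈ U, (H w).PosDef)
    (hτ : ∀ i, ContDiffOn ℝ 2 (fun w => τ w i) U) (hhol : ∀ i, DifferentiableOn ℂ (fun w => τ w i) U)
    {z : E} (hz : z ∈ U) (ξ : E) (hcurv : ∀ u, 0 ≤ curvForm H z ξ u) :
    0 ≤ d2 (dualSq H τ) z ξ + d2 (dualSq H τ) z (Complex.I • ξ) := by
  have hfz : ContDiffAt ℝ 2 (dualSq H τ) z :=
    (contDiffOn_dualSq hH hpos hτ).contDiffAt (hU.mem_nhds hz)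
  have hev : ∀ a : E, ∀ᶠ s : ℝ in 𝓝 0, z + s • a ∈ U := fun a =>
    (line_tendsto z a).eventually (hU.mem_nhds hz)
  have hnn : ∀ w ∈ U, 0 ≤ dualSq H τ w := fun w hw => by
    have h := (hpos w hw).inv.posSemidef.dotProduct_mulVec_nonneg (star (τ w))
    rw [star_star] at h
    exact (Complex.nonneg_iff.1 h).1
  rcases eq_or_ne (τ z) 0 with ht | ht
  · have h : ∀ a, 0 ≤ d2 (dualSq H τ) z a := fun a => by
      refine ((Jet.line hfz a).localMin ?_).2
      refine (hev a).mono fun s hs => ?_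
      simpa [dualSq, ht] using hnn _ hs
    exact add_nonneg (h _) (h _)
  have hM := hpos z hz
  have hu : IsUnit (H z).det := (Matrix.isUnit_iff_isUnit_det _).1 hM.isUnit
  set x := (H z)⁻¹ *ᵥ star (τ z) with hx
  set y := -((H z)⁻¹ *ᵥ (dH H z ξ *ᵥ x)) with hy
  have hMx : H z *ᵥ x = star (τ z) := by
    rw [hx, Matrix.mulVec_mulVec, Matrix.mul_nonsing_inv _ hu, Matrix.one_mulVec]
  have hMy : ∀ u, bil (H z) u y = -bil (dH H z ξ) u x := fun u => by
    rw [bil, bil, hy, Matrix.mulVec_neg, Matrix.mulVec_mulVec, Matrix.mul_nonsing_inv _ hu,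
      Matrix.one_mulVec, dotProduct_neg]
  clear_value y
  clear_value x
  have hMy' : ∀ u, bil (H z) y u = -conj (bil (dH H z ξ) u x) := fun u => by
    rw [← bil_conj hM.isHermitian, hMy, map_neg]
  have hF0 : 0 < τ z ⬝ᵥ x := by
    simpa [hx] using hM.inv.dotProduct_mulVec_pos (star_ne_zero.2 ht)
  set F := dualSq H τ z with hFd
  have hFx : τ z ⬝ᵥ x = (F : ℂ) :=
    Complex.ext (by simp [F, dualSq, hx]) (by simp [← (Complex.pos_iff.1 hF0).2])
  have hFpos : 0 < F := by
    have h := (Complex.pos_iff.1 hF0).1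
    rwa [hFx, Complex.ofReal_re] at h
  have hMxx : bil (H z) x x = (F : ℂ) := by
    rw [bil, hMx, Matrix.star_dotProduct_star, hFx]; simp
  let p : ℂ → ℂ := fun t => τ (z + t • ξ) ⬝ᵥ (x + t • y)
  have hp : AnalyticAt ℂ p 0 := by
    set V := (fun t : ℂ => z + t • ξ) ⁻¹' U
    have hV : IsOpen V := hU.preimage (by fun_prop)
    refine DifferentiableOn.analyticAt (s := V) ?_ (hV.mem_nhds (by simpa [V] using hz))
    simp only [p, dotProduct]
    refine DifferentiableOn.fun_sum fun i _ => DifferentiableOn.mul ?_ ?_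
    · exact (hhol i).comp
        (differentiableOn_const z |>.add (differentiableOn_id.smul_const ξ)) fun t ht => ht
    · exact (differentiable_const (x i) |>.add (differentiable_id.mul_const (y i))).differentiableOn
  have hp0 : p 0 = (F : ℂ) := by simp [p, hFx]
  have hsub : ∀ (a : E) (k : ℂ), (∀ s : ℝ, ((s : ℂ) * k) • ξ = s • a) →
      bil (dMat H z a) x x = k * bil (dH H z ξ) x x + conj (k * bil (dH H z ξ) x x) →
      0 ≤ d2 (dualSq H τ) z a * F +
        F * (bil (d2Mat H z a) x x + 2 * (bil (dMat H z a) (k • y) x + bil (dMat H z a) x (k • y))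
          + 2 * bil (H z) (k • y) (k • y)).re -
        (2 * ‖deriv p 0 * k‖ ^ 2 + 2 * F * (deriv (deriv p) 0 * k * k).re) := by
    intro a k hka hD
    have hv : ∀ s : ℝ, x + s • (k • y) = x + ((s : ℂ) * k) • y := fun s => by
      rw [← smul_smul, Complex.coe_smul]
    have hH' : ∀ i j, Jet (fun s : ℝ => H (z + s • a) i j) (H z i j) (dMat H z a i j)
        (d2Mat H z a i j) := fun i j => Jet.line ((hH i j).contDiffAt (hU.mem_nhds hz)) a
    have hJQ : Jet (fun s : ℝ => (bil (H (z + s • a)) (x + s • k • y) (x + s • k • y)).re) _ _ _ :=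
      (jet_bil hH' x (k • y)).map Complex.reCLM
    have hJp : Jet (fun s : ℝ => ‖τ (z + s • a) ⬝ᵥ (x + s • k • y)‖ ^ 2) _ _ _ :=
      (jet_normSq (Jet.analytic hp k)).congr (Eventually.of_forall fun s => by
        simp only [p]; rw [hka, hv])
    have hJ := ((Jet.line hfz a).mul hJQ).add (hJp.map (-ContinuousLinearMap.id ℝ ℝ))
    have hb : (bil (H z) (k • y) x + bil (dMat H z a) x x + bil (H z) x (k • y)).re = 0 := by
      have e1 : bil (H z) (k • y) x = conj k * bil (H z) y x := by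
        simp [bil, star_smul, smul_dotProduct]
      have e2 : bil (H z) x (k • y) = k * bil (H z) x y := by
        simp [bil, Matrix.mulVec_smul, dotProduct_smul]
      rw [e1, e2, hD, hMy, hMy', map_mul]
      simp
    have hmin := (hJ.localMin ?_).2
    · simp only [Complex.reCLM_apply, hMxx, hp0, hb, mul_zero, add_zero, Complex.ofReal_re,
        _root_.neg_apply, ContinuousLinearMap.id_apply, Complex.conj_ofReal, Complex.re_ofReal_mul] at hmin
      linarith
    · refine (hev a).mono fun s hs => ?_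
      have h1 := norm_sq_dot_le (hpos _ hs) (τ (z + s • a)) (x + s • k • y)
      have h0 : dualSq H τ (z + (0 : ℝ) • a) * (bil (H (z + (0 : ℝ) • a)) (x + (0 : ℝ) • k • y)
          (x + (0 : ℝ) • k • y)).re -
          ‖τ (z + (0 : ℝ) • a) ⬝ᵥ (x + (0 : ℝ) • k • y)‖ ^ 2 = 0 := by
        simp [← hFd, hMxx, hFx, sq]
      simp only [_root_.neg_apply, ContinuousLinearMap.id_apply, dualSq] at h0 ⊢
      linarith
  have hherm := fun a => dMat_isHermitian (fun i j => (hH i j).contDiffAt (hU.mem_nhds hz))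
    (Filter.eventually_of_mem (hU.mem_nhds hz) fun w hw => (hpos w hw).isHermitian) a
  have hr : ∀ a, (bil (dMat H z a) x x).im = 0 := fun a =>
    Complex.conj_eq_iff_im.1 (bil_conj (hherm a).1 x x)
  have hdH : bil (dH H z ξ) x x =
      (1 / 2 : ℂ) * (bil (dMat H z ξ) x x - Complex.I * bil (dMat H z (Complex.I • ξ)) x x) := by
    simp [bil, dH, Matrix.smul_mulVec, Matrix.sub_mulVec, dotProduct_smul, dotProduct_sub]
  have h1 := hsub ξ 1 (fun s => by simp) (by
    rw [hdH]
    refine Complex.ext ?_ ?_ <;> simp [hr]; ring)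
  have h2 := hsub (Complex.I • ξ) Complex.I
    (fun s => by rw [← smul_smul, Complex.coe_smul]) (by
    rw [hdH]
    refine Complex.ext ?_ ?_ <;> simp [hr]; ring)
  have hQ : (bil (d2Mat H z ξ) x x + 2 * (bil (dMat H z ξ) ((1 : ℂ) • y) x +
      bil (dMat H z ξ) x ((1 : ℂ) • y)) + 2 * bil (H z) ((1 : ℂ) • y) ((1 : ℂ) • y)) +
      (bil (d2Mat H z (Complex.I • ξ)) x x + 2 * (bil (dMat H z (Complex.I • ξ)) (Complex.I • y) x +
      bil (dMat H z (Complex.I • ξ)) x (Complex.I • y)) +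
      2 * bil (H z) (Complex.I • y) (Complex.I • y)) =
      -4 * (star x ⬝ᵥ ((dbH H z ξ * (H z)⁻¹ * dH H z ξ - ddH H z ξ) *ᵥ x)) := by
    have ey : star x ⬝ᵥ ((dbH H z ξ * (H z)⁻¹ * dH H z ξ) *ᵥ x) = -bil (dbH H z ξ) x y := by
      rw [bil, hy, Matrix.mulVec_neg, dotProduct_neg, neg_neg, Matrix.mulVec_mulVec,
        Matrix.mulVec_mulVec]
    have eyy : bil (H z) y y = -bil (dH H z ξ) y x := hMy y
    rw [Matrix.sub_mulVec, dotProduct_sub, ey]
    simp only [bil, dH, dbH, ddH, one_smul, star_smul, smul_dotProduct, Matrix.mulVec_smul,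
      dotProduct_smul, Matrix.smul_mulVec, Matrix.sub_mulVec, Matrix.add_mulVec, dotProduct_sub,
      dotProduct_add, smul_eq_mul, Complex.star_def, Complex.conj_I] at eyy ⊢
    linear_combination (4 : ℂ) * eyy +
      (-2 * (star y ⬝ᵥ (H z *ᵥ y))) * Complex.I_mul_I
  have hQre := congrArg Complex.re hQ
  have hcz : (star x ⬝ᵥ ((dbH H z ξ * (H z)⁻¹ * dH H z ξ - ddH H z ξ) *ᵥ x)).re =
      curvForm H z ξ x := rfl
  simp only [Complex.add_re, Complex.mul_re, Complex.neg_re, Complex.neg_im, Complex.re_ofNat,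
    Complex.im_ofNat, zero_mul, sub_zero, neg_zero, hcz] at hQre
  simp only [Complex.add_re, Complex.mul_re, Complex.re_ofNat, Complex.im_ofNat, zero_mul,
    sub_zero, mul_one, norm_mul, Complex.norm_I, Complex.I_re, Complex.I_im] at h1 h2
  have hmul := congrArg (fun r => F * r) hQre
  have hc := mul_nonneg hFpos.le (hcurv x)
  ring_nf at h1 h2 hmul
  simp only [Complex.I_mul_im] at h2
  refine nonneg_of_mul_nonneg_left (b := F) ?_ hFpos
  nlinarith [sq_nonneg ‖deriv p 0‖]

/-- Nonnegative curvature makes the dual norm of a holomorphic row satisfy the sub-mean value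
inequality on every complex line. -/
theorem dualSq_le_circleAverage {U : Set E} (hU : IsOpen U) {H : E → Matrix ι ι ℂ} {τ : E → ι → ℂ}
    (hH : ∀ i j, ContDiffOn ℝ 2 (fun w => H w i j) U) (hpos : ∀ w ∈ U, (H w).PosDef)
    (hτ : ∀ i, ContDiffOn ℝ 2 (fun w => τ w i) U) (hhol : ∀ i, DifferentiableOn ℂ (fun w => τ w i) U)
    (hcurv : ∀ w ∈ U, ∀ ξ u, 0 ≤ curvForm H w ξ u) {z ξ : E} {c : ℂ} {R : ℝ} (hR : 0 ≤ R)
    (hball : ∀ t ∈ Metric.closedBall c R, z + t • ξ ∈ U) :
    dualSq H τ (z + c • ξ) ≤ Real.circleAverage (fun t => dualSq H τ (z + t • ξ)) c R := by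
  set V := (fun t : ℂ => z + t • ξ) ⁻¹' U with hVd
  have hV : IsOpen V := hU.preimage (by fun_prop)
  have hf := contDiffOn_dualSq hH hpos hτ
  have hg : ContDiffOn ℝ 2 (fun t : ℂ => dualSq H τ (z + t • ξ)) V :=
    hf.comp (contDiff_const.add (contDiff_id.smul contDiff_const)).contDiffOn fun t ht => ht
  refine le_circleAverage_of_d2 hV hg hR hball fun w hw => ?_
  have hline : ∀ a : ℂ, d2 (fun t : ℂ => dualSq H τ (z + t • ξ)) w a =
      d2 (dualSq H τ) (z + w • ξ) (a • ξ) := fun a => by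
    refine (Jet.unique (Jet.line (hg.contDiffAt (hV.mem_nhds hw)) a)
      ((Jet.line (hf.contDiffAt (hU.mem_nhds hw)) (a • ξ)).congr (Eventually.of_forall fun s => ?_))).2
    show dualSq H τ (z + w • ξ + s • (a • ξ)) = dualSq H τ (z + (w + s • a) • ξ)
    rw [add_smul, smul_assoc, add_assoc]
  rw [hline, hline, one_smul]
  exact d2_dualSq_nonneg hU hH hpos hτ hhol hw ξ fun u => hcurv _ hw ξ u

end Vale.Agent.P296
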