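import Vale.Agent.P296.SubMean

/-!
# Second order jets of functions of a real variable at zero
-/

noncomputable section

namespace Vale.Agent.P296

open Filter Topology

/-- `g` has value `a`, first derivative `b` and second derivative `c` at zero. -/
def Jet {F : Type*} [NormedAddCommGroup F] [NormedSpace ℝ F] (g : ℝ → F) (a b c : F) : Prop :=
  ∃ g' : ℝ → F, g 0 = a ∧ g' 0 = b ∧ (∀ᶠ s in 𝓝 0, HasDerivAt g (g' s) s) ∧ HasDerivAt g' c 0

namespace Jet

variable {F G : Type*} [NormedAddCommGroup F] [NormedSpace ℝ F] [NormedAddCommGroup G]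
  [NormedSpace ℝ G]

lemma const (a : F) : Jet (fun _ => a) a 0 0 :=
  ⟨fun _ => 0, rfl, rfl, Eventually.of_forall fun _ => hasDerivAt_const _ _, hasDerivAt_const _ _⟩

lemma affine (a b : F) : Jet (fun s : ℝ => a + s • b) a b 0 :=
  ⟨fun _ => b, by simp, rfl,
    Eventually.of_forall fun s => by simpa using ((hasDerivAt_id s).smul_const b).const_add a,
    hasDerivAt_const _ _⟩

lemma add {g h : ℝ → F} {a b c a' b' c' : F} (hg : Jet g a b c) (hh : Jet h a' b' c') :
    Jet (fun s => g s + h s) (a + a') (b + b') (c + c') := by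
  obtain ⟨g', g0, g1, gd, g2⟩ := hg
  obtain ⟨h', h0, h1, hd, h2⟩ := hh
  exact ⟨fun s => g' s + h' s, by simp [g0, h0], by simp [g1, h1],
    (gd.and hd).mono fun s hs => hs.1.add hs.2, g2.add h2⟩

lemma map {g : ℝ → F} {a b c : F} (hg : Jet g a b c) (L : F →L[ℝ] G) :
    Jet (fun s => L (g s)) (L a) (L b) (L c) := by
  obtain ⟨g', g0, g1, gd, g2⟩ := hg
  exact ⟨fun s => L (g' s), by simp [g0], by simp [g1],
    gd.mono fun s hs => L.hasFDerivAt.comp_hasDerivAt s hs, L.hasFDerivAt.comp_hasDerivAt 0 g2⟩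

lemma congr {g h : ℝ → F} {a b c : F} (hg : Jet g a b c) (e : ∀ᶠ s in 𝓝 0, g s = h s) :
    Jet h a b c := by
  obtain ⟨g', g0, g1, gd, g2⟩ := hg
  refine ⟨g', e.self_of_nhds.symm.trans g0, g1, ?_, g2⟩
  exact (gd.and (eventually_eventually_nhds.2 e)).mono fun s hs =>
    hs.1.congr_of_eventuallyEq (hs.2.mono fun u hu => hu.symm)

lemma unique {g : ℝ → F} {a b c a' b' c' : F} (h : Jet g a b c) (h' : Jet g a' b' c') :
    b = b' ∧ c = c' := by
  obtain ⟨g', -, g1, gd, g2⟩ := h
  obtain ⟨k', -, k1, kd, k2⟩ := h'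
  have e : g' =ᶠ[𝓝 0] k' := (gd.and kd).mono fun s hs => hs.1.unique hs.2
  exact ⟨by rw [← g1, ← k1]; exact e.self_of_nhds,
    g2.unique (k2.congr_of_eventuallyEq e)⟩

lemma sum {ι : Type*} (t : Finset ι) {g : ι → ℝ → F} {a b c : ι → F}
    (h : ∀ i ∈ t, Jet (g i) (a i) (b i) (c i)) :
    Jet (fun s => ∑ i ∈ t, g i s) (∑ i ∈ t, a i) (∑ i ∈ t, b i) (∑ i ∈ t, c i) := by
  classical
  induction t using Finset.induction_on with
  | empty => simpa using const (0 : F)
  | insert i t hit IH =>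
    simp only [Finset.sum_insert hit]
    exact (h i (Finset.mem_insert_self i t)).add (IH fun j hj => h j (Finset.mem_insert_of_mem hj))

lemma mul {A : Type*} [NormedCommRing A] [NormedAlgebra ℝ A] {g h : ℝ → A} {a b c a' b' c' : A}
    (hg : Jet g a b c) (hh : Jet h a' b' c') :
    Jet (fun s => g s * h s) (a * a') (b * a' + a * b') (c * a' + 2 * (b * b') + a * c') := by
  obtain ⟨g', g0, g1, gd, g2⟩ := hg
  obtain ⟨h', h0, h1, hd, h2⟩ := hh
  refine ⟨fun s => g' s * h s + g s * h' s, by simp [g0, h0], by simp [g0, h0, g1, h1],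
    (gd.and hd).mono fun s hs => hs.1.mul hs.2, ?_⟩
  have h := (g2.mul hd.self_of_nhds).add (gd.self_of_nhds.mul h2)
  refine h.congr_deriv ?_
  rw [g0, h0, g1, h1]
  ring

/-- At a local minimum the first derivative vanishes and the second is nonnegative. -/
lemma localMin {g : ℝ → ℝ} {a b c : ℝ} (h : Jet g a b c) (hmin : IsLocalMin g 0) :
    b = 0 ∧ 0 ≤ c := by
  obtain ⟨g', -, g1, gd, g2⟩ := h
  have hb : b = 0 := g1 ▸ hmin.hasDerivAt_eq_zero gd.self_of_nhds
  refine ⟨hb, not_lt.1 fun hc => ?_⟩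
  have hneg : ∀ᶠ s in 𝓝[≠] (0 : ℝ), slope g' 0 s < c / 2 :=
    (hasDerivAt_iff_tendsto_slope.1 g2).eventually (eventually_lt_nhds (by linarith))
  obtain ⟨δ, hδ, hall⟩ := Metric.eventually_nhds_iff.1
    ((eventually_nhdsWithin_iff.1 hneg).and (gd.and hmin))
  have hmem : ∀ s ∈ Set.Icc (0 : ℝ) (δ / 2), dist s 0 < δ := fun s hs => by
    rw [Real.dist_eq, sub_zero, abs_of_nonneg hs.1]; linarith [hs.2]
  have hanti : StrictAntiOn g (Set.Icc 0 (δ / 2)) := by
    refine strictAntiOn_of_hasDerivWithinAt_neg (f' := g') (convex_Icc 0 (δ / 2))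
      (fun s hs => (hall (hmem s hs)).2.1.continuousAt.continuousWithinAt)
      (fun s hs => (hall (hmem s (interior_subset hs))).2.1.hasDerivWithinAt) fun s hs => ?_
    rw [interior_Icc] at hs
    have h1 := (hall (hmem s (Set.Ioo_subset_Icc_self hs))).1 (ne_of_gt hs.1)
    rw [slope_def_field, g1, hb, sub_zero, sub_zero, div_lt_iff₀ hs.1] at h1
    nlinarith [hs.1]
  have h1 := hanti ⟨le_rfl, by linarith⟩ ⟨by linarith, le_rfl⟩ (by linarith)
  have h2 := (hall (hmem (δ / 2) ⟨by linarith, le_rfl⟩)).2.2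
  linarith

variable {E : Type*} [NormedAddCommGroup E] [NormedSpace ℝ E]

/-- The jet of a twice differentiable function along a line. -/
lemma line {f : E → F} {z : E} (hf : ContDiffAt ℝ 2 f z) (a : E) :
    Jet (fun s : ℝ => f (z + s • a)) (f z) (fderiv ℝ f z a) (d2 f z a) := by
  refine ⟨fun s => fderiv ℝ f (z + s • a) a, by simp, by simp, ?_, ?_⟩
  · have hl : Tendsto (fun s : ℝ => z + s • a) (𝓝 0) (𝓝 z) := by
      simpa [Pi.add_def, Pi.smul_def'] using
        ((continuous_const (y := z)).add (continuous_id.smul (continuous_const (y := a)))).tendsto (0 : ℝ)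
    exact (hl.eventually (hf.eventually (by simp))).mono fun s hs =>
      hasDerivAt_line (hs.differentiableAt (by norm_num))
  · have h1 : ContDiffAt ℝ 1 (fderiv ℝ f) (z + (0 : ℝ) • a) := by
      simpa using hf.fderiv_right (m := 1) (by norm_num)
    simpa using hasDerivAt_line₂ (h1.differentiableAt (by norm_num))

/-- The jet of a holomorphic function along the real line through the direction `k`. -/
lemma analytic {p : ℂ → ℂ} (hp : AnalyticAt ℂ p 0) (k : ℂ) :
    Jet (fun s : ℝ => p ((s : ℂ) * k)) (p 0) (deriv p 0 * k) (deriv (deriv p) 0 * k * k) := by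
  refine ⟨fun s => deriv p ((s : ℂ) * k) * k, by simp, by simp, ?_, ?_⟩
  · have hl : Tendsto (fun s : ℝ => (s : ℂ) * k) (𝓝 0) (𝓝 0) := by
      simpa [Pi.mul_def] using
        (Complex.continuous_ofReal.mul (continuous_const (y := k))).tendsto (0 : ℝ)
    refine (hl.eventually hp.eventually_analyticAt).mono fun s hs => ?_
    exact ((hs.differentiableAt.hasDerivAt).comp (s : ℂ)
      (hasDerivAt_mul_const k)).comp_ofReal
  · have h := hp.deriv.differentiableAt.hasDerivAt
    rw [← zero_mul k] at h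
    have h2 := ((h.comp (0 : ℂ) (hasDerivAt_mul_const k)).mul_const k)
    have h3 := HasDerivAt.comp_ofReal (z := (0 : ℝ)) (by simpa using h2)
    simpa using h3

end Jet

end Vale.Agent.P296
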