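import Vale.Agent.P296.Proj.FromMap
import Vale.Agent.P296.Analysis.PullbackPositive

/-!
# P296: the definitions of the statement are not vacuous

Every holomorphic bundle on a compact manifold has a Hermitian metric in the sense of the statement,
and the line bundle of a projective immersion, which is ample, has a Griffiths positive one.
-/

noncomputable section

namespace Vale.Agent.P296

open scoped Manifold ContDiff Topology ComplexOrder
open Matrix Filter

variable {n r : ℕ} {X : Type} [TopologicalSpace X] [ChartedSpace (Cn n) X]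

lemma HolBundle.g_mulVec (E : HolBundle n r X) (a b : E.ι) (x : X) (v : Fin r → ℂ) :
    E.g a b x *ᵥ v = fun i => E.core.coordChange a b x (WithLp.toLp 2 v) i := by
  funext i
  have e : WithLp.toLp 2 v = ∑ j, v j • EuclideanSpace.single j (1 : ℂ) := by
    ext k
    simp [EuclideanSpace.single, Pi.single_apply]
  rw [e, map_sum]
  simp [Matrix.mulVec, dotProduct, HolBundle.g, map_smul, mul_comm]

lemma HolBundle.g_mul (E : HolBundle n r X) {a b c : E.ι} {x : X}
    (hx : x ∈ E.core.baseSet a ∩ E.core.baseSet b ∩ E.core.baseSet c) :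
    E.g b c x * E.g a b x = E.g a c x := by
  refine Matrix.ext_of_mulVec_single fun j => ?_
  rw [← Matrix.mulVec_mulVec, E.g_mulVec, E.g_mulVec, E.g_mulVec]
  funext i
  simp [E.core.coordChange_comp a b c x hx]

lemma HolBundle.g_self (E : HolBundle n r X) {a : E.ι} {x : X} (hx : x ∈ E.core.baseSet a) :
    E.g a a x = 1 := by
  refine Matrix.ext_of_mulVec_single fun j => ?_
  rw [E.g_mulVec, Matrix.one_mulVec]
  funext i
  simp [E.core.coordChange_self a x hx, Pi.single_apply]

lemma HolBundle.contMDiffOn_g (E : HolBundle n r X) (a b : E.ι) (i j : Fin r) :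
    ContMDiffOn 𝓘(ℂ, Cn n) 𝓘(ℂ, ℂ) ω (fun x => E.g a b x i j)
      (E.core.baseSet a ∩ E.core.baseSet b) := by
  have h := E.hol.contMDiffOn_coordChange a b
  let L : (Cn r →L[ℂ] Cn r) →L[ℂ] ℂ := (PiLp.proj 2 (fun _ : Fin r => ℂ) i).comp
    (ContinuousLinearMap.apply ℂ (Cn r) (EuclideanSpace.single j (1 : ℂ)))
  exact L.contMDiff.comp_contMDiffOn h

/-- A holomorphic function, read in any chart, is smooth over `ℝ`. -/
lemma contDiffAt_real [IsManifold 𝓘(ℂ, Cn n) ω X] {F : Type} [NormedAddCommGroup F]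
    [NormedSpace ℂ F] {f : X → F} {s : Set X} (hs : IsOpen s)
    (hf : ContMDiffOn 𝓘(ℂ, Cn n) 𝓘(ℂ, F) ω f s) (q : X) {z : Cn n}
    (hz : z ∈ (chartAt (Cn n) q).target) (hzs : (chartAt (Cn n) q).symm z ∈ s) :
    ContDiffAt ℝ ∞ (fun w => f ((chartAt (Cn n) q).symm w)) z := by
  have hc : ContMDiffAt 𝓘(ℂ, Cn n) 𝓘(ℂ, Cn n) ω (chartAt (Cn n) q).symm z :=
    contMDiffOn_chart_symm.contMDiffAt ((chartAt (Cn n) q).open_target.mem_nhds hz)
  have h := contMDiffAt_iff_contDiffAt.1 ((hf.contMDiffAt (hs.mem_nhds hzs)).comp z hc)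
  exact (h.restrict_scalars ℝ).of_le le_top

/-- Hermitian metrics exist, so the nonexistence of positive ones is not vacuous. -/
theorem exists_hermMetric [T2Space X] [CompactSpace X] [IsManifold 𝓘(ℂ, Cn n) ω X]
    (E : HolBundle n r X) : Nonempty (HermMetric E) := by
  classical
  let a₀ : X → E.ι := E.core.indexAt
  let e : X → OpenPartialHomeomorph X (Cn n) := fun p => chartAt (Cn n) p
  have hW : ∀ p, IsOpen ((e p).target ∩ (e p).symm ⁻¹' E.core.baseSet (a₀ p)) ∧
      e p p ∈ (e p).target ∩ (e p).symm ⁻¹' E.core.baseSet (a₀ p) := fun p =>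
    ⟨(e p).isOpen_inter_preimage_symm (E.core.isOpen_baseSet _),
      (e p).map_source (mem_chart_source _ p), by
        rw [Set.mem_preimage, (e p).left_inv (mem_chart_source _ p)]
        exact E.core.mem_baseSet_at p⟩
  have hball : ∀ p, ∃ δ > (0 : ℝ), Metric.closedBall (e p p) δ
      ⊆ (e p).target ∩ (e p).symm ⁻¹' E.core.baseSet (a₀ p) := fun p =>
    Metric.nhds_basis_closedBall.mem_iff.1 ((hW p).1.mem_nhds (hW p).2)
  choose δ hδ hsub using hball
  let b : ∀ p, ContDiffBump (e p p) := fun p =>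
    ⟨δ p / 2, δ p, half_pos (hδ p), half_lt_self (hδ p)⟩
  let S : X → Set X := fun p => (e p).source ∩ E.core.baseSet (a₀ p)
  let ρ : X → X → ℝ := fun p x => if x ∈ S p then b p (e p x) else 0
  let K : X → Set X := fun p => (e p).symm '' Metric.closedBall (e p p) (δ p)
  have hK : ∀ p, IsClosed (K p) := fun p => ((isCompact_closedBall _ _).image_of_continuousOn
    ((e p).continuousOn_symm.mono fun w hw => (hsub p hw).1)).isClosed
  have hKS : ∀ p, K p ⊆ S p := by
    rintro p _ ⟨w, hw, rfl⟩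
    exact ⟨(e p).map_target (hsub p hw).1, (hsub p hw).2⟩
  have hρ0 : ∀ p x, x ∉ K p → ρ p x = 0 := fun p x hx => by
    simp only [ρ]
    split_ifs with hS
    · refine (b p).zero_of_le_dist (le_of_not_ge fun hd => hx ⟨e p x, ?_, (e p).left_inv hS.1⟩)
      exact Metric.mem_closedBall.2 hd
    · rfl
  have hρn : ∀ p x, 0 ≤ ρ p x := fun p x => by
    simp only [ρ]; split_ifs
    exacts [(b p).nonneg, le_rfl]
  obtain ⟨t, ht⟩ := isCompact_univ.elim_finite_subcover
    (fun p => S p ∩ ((e p).source ∩ (e p) ⁻¹' Metric.ball (e p p) (δ p)))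
    (fun p => ((e p).open_source.inter (E.core.isOpen_baseSet _)).inter
      ((e p).isOpen_inter_preimage Metric.isOpen_ball))
    fun x _ => Set.mem_iUnion.2 ⟨x, ⟨mem_chart_source _ x, E.core.mem_baseSet_at x⟩,
      mem_chart_source _ x, Metric.mem_ball_self (hδ x)⟩
  let h : E.ι → X → Matrix (Fin r) (Fin r) ℂ := fun a x =>
    ∑ p ∈ t, (ρ p x : ℂ) • ((E.g a (a₀ p) x)ᴴ * E.g a (a₀ p) x)
  refine ⟨⟨h, ?_, ?_, ?_⟩⟩
  · intro a x hx
    obtain ⟨p, hp, hpS, -, hpb⟩ := Set.mem_iUnion₂.1 (ht (Set.mem_univ x))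
    have hρp : 0 < ρ p x := by
      simp only [ρ, if_pos hpS]
      exact (b p).pos_of_mem_ball hpb
    have hu : E.g (a₀ p) a x * E.g a (a₀ p) x = 1 := by
      rw [E.g_mul ⟨⟨hx, hpS.2⟩, hx⟩, E.g_self hx]
    have hsemi : ∀ q ∈ t,
        ((ρ q x : ℂ) • ((E.g a (a₀ q) x)ᴴ * E.g a (a₀ q) x)).PosSemidef := fun q _ =>
      (Matrix.posSemidef_conjTranspose_mul_self _).smul (Complex.zero_le_real.2 (hρn q x))
    have hpd : ((ρ p x : ℂ) • ((E.g a (a₀ p) x)ᴴ * E.g a (a₀ p) x)).PosDef :=
      (Matrix.PosDef.conjTranspose_mul_self _ (Matrix.mulVec_injective_of_isUnit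
        ((Matrix.isUnit_iff_isUnit_det _).2 (Matrix.isUnit_det_of_left_inverse hu)))).smul (Complex.zero_lt_real.2 hρp)
    simp only [h]
    rw [← Finset.add_sum_erase t _ hp]
    exact hpd.add_posSemidef (Matrix.posSemidef_sum _ fun q hq => hsemi q (Finset.mem_of_mem_erase hq))
  · intro a c x hx
    simp only [h, Matrix.mul_sum, Matrix.sum_mul, Matrix.mul_smul, Matrix.smul_mul]
    refine Finset.sum_congr rfl fun p _ => ?_
    by_cases hp : x ∈ K p
    · rw [← E.g_mul ⟨hx, (hKS p hp).2⟩, Matrix.conjTranspose_mul]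
      simp only [Matrix.mul_assoc]
    · simp [hρ0 p x hp]
  · intro a i j q z hz
    refine ContDiffAt.contDiffWithinAt ?_
    simp only [h, Matrix.sum_apply, Matrix.smul_apply, Matrix.mul_apply,
      Matrix.conjTranspose_apply, smul_eq_mul]
    refine ContDiffAt.sum fun p _ => ?_
    by_cases hp : (chartAt (Cn n) q).symm z ∈ K p
    · have hS := hKS p hp
      have ho : IsOpen (S p) := (e p).open_source.inter (E.core.isOpen_baseSet _)
      have hchart : ContDiffAt ℝ ∞ (fun w => e p ((chartAt (Cn n) q).symm w)) z :=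
        contDiffAt_real (e p).open_source contMDiffOn_chart q hz.1 hS.1
      have hρ : ContDiffAt ℝ ∞ (fun w => (ρ p ((chartAt (Cn n) q).symm w) : ℂ)) z := by
        refine (Complex.ofRealCLM.contDiff.contDiffAt.comp z
          ((b p).contDiff.contDiffAt.comp z hchart)).congr_of_eventuallyEq ?_
        filter_upwards [((chartAt (Cn n) q).continuousAt_symm hz.1).eventually (ho.mem_nhds hS)]
          with w hw
        simp only [ρ]
        rw [if_pos (show (chartAt (Cn n) q).symm w ∈ S p from hw)]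
        rfl
      have hg : ∀ k l, ContDiffAt ℝ ∞
          (fun w => E.g a (a₀ p) ((chartAt (Cn n) q).symm w) k l) z := fun k l =>
        contDiffAt_real ((E.core.isOpen_baseSet _).inter (E.core.isOpen_baseSet _))
          (E.contMDiffOn_g a (a₀ p) k l) q hz.1 ⟨hz.2, hS.2⟩
      exact hρ.mul (ContDiffAt.sum fun k _ =>
        (Complex.conjCLE.contDiff.contDiffAt.comp z (hg k i)).mul (hg k j))
    · refine (contDiffAt_const (c := (0 : ℂ))).congr_of_eventuallyEq ?_
      filter_upwards [((chartAt (Cn n) q).continuousAt_symm hz.1).eventually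
        ((hK p).isOpen_compl.mem_nhds hp)] with w hw
      simp [hρ0 p _ hw]

namespace Proj

variable {N : ℕ} (f : ProjMap (n := n) X N)

/-- The squared norm of the homogeneous coordinates. -/
def ProjMap.normSq' (a : f.ι) (x : X) : ℂ := ∑ k, star (f.Φ a x k) * f.Φ a x k

lemma ProjMap.normSq'_pos (a : f.ι) {x : X} (hx : x ∈ f.U a) : 0 < f.normSq' a x :=
  dotProduct_star_self_pos_iff.2 (f.ne_zero a x hx)

/-- The Chern form of `1 / |F|²` is the squared length of the Fubini–Study differential. -/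
lemma chern_inv_normSq {F : Cn n → Fin N → ℂ} {z : Cn n} (ξ : Cn n) (hF : AnalyticAt ℂ F z)
    (hne : F z ≠ 0) :
    Cov.chern (fun w => Matrix.of fun _ _ : Fin 1 => (∑ k, star (F w k) * F w k)⁻¹) ξ z 0 0
      = ((∑ k, star (F z k) * F z k)⁻¹) ^ 2 * ∑ k,
        star (fderiv ℂ F z ξ k - (∑ l, star (F z l) * fderiv ℂ F z ξ l)
          / (∑ l, star (F z l) * F z l) * F z k)
        * (fderiv ℂ F z ξ k - (∑ l, star (F z l) * fderiv ℂ F z ξ l)
          / (∑ l, star (F z l) * F z l) * F z k) := by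
  set S : Cn n → ℂ := fun w => ∑ k, star (F w k) * F w k with hS
  set G : Fin N → Cn n → ℂ := fun k w => fderiv ℂ F w ξ k with hG
  have hFk : ∀ k, AnalyticAt ℂ (fun w => F w k) z := fun k =>
    ((ContinuousLinearMap.proj (R := ℂ) (φ := fun _ : Fin N => ℂ) k).analyticAt _).comp hF
  have hev : ∀ᶠ w in 𝓝 z, (∀ k, DifferentiableAt ℂ (fun v => F v k) w) ∧
      DifferentiableAt ℂ F w ∧ S w ≠ 0 := by
    have hSc : ContinuousAt S z := by
      have := hF.continuousAt
      simp only [hS]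
      fun_prop
    filter_upwards [hF.eventually_analyticAt,
      hSc.eventually_ne (dotProduct_star_self_pos_iff.2 hne).ne'] with w hw hw0
    exact ⟨differentiableAt_pi.1 hw.differentiableAt, hw.differentiableAt, hw0⟩
  have hGd : ∀ k, DifferentiableAt ℂ (G k) z := fun k =>
    differentiableAt_pi.1 (hF.fderiv.differentiableAt.clm_apply (differentiableAt_const ξ)) k
  have hdF : ∀ w k, DifferentiableAt ℂ F w →
      fderiv ℂ (fun v => F v k) w ξ = G k w := fun w k hw => by
    simp only [hG]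
    rw [(hasFDerivAt_pi'.1 hw.hasFDerivAt k).fderiv]
    rfl
  have hSd : ∀ᶠ w in 𝓝 z, DifferentiableAt ℝ S w := hev.mono fun w hw =>
    DifferentiableAt.fun_sum fun k _ =>
      ((Complex.conjCLE.differentiableAt).comp w ((hw.1 k).restrictScalars ℝ)).mul
        ((hw.1 k).restrictScalars ℝ)
  have hdzS : ∀ᶠ w in 𝓝 z, Cov.dz S ξ w = ∑ k, star (F w k) * G k w := by
    filter_upwards [hev] with w hw
    have hd : ∀ k, DifferentiableAt ℝ (fun v => star (F v k)) w := fun k =>
      (Complex.conjCLE.differentiableAt).comp w ((hw.1 k).restrictScalars ℝ)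
    simp only [hS]
    rw [Cov.dz_sum _ fun k _ => (hd k).fun_mul ((hw.1 k).restrictScalars ℝ)]
    refine Finset.sum_congr rfl fun k _ => ?_
    rw [Cov.dz_mul (hd k) ((hw.1 k).restrictScalars ℝ), Cov.dz_star_hol (hw.1 k),
      Cov.dz_hol (hw.1 k), hdF w k hw.2.1]
    ring
  obtain ⟨hz1, hz2, hz0⟩ := hev.self_of_nhds
  have hdstar : ∀ k, DifferentiableAt ℝ (fun v => star (F v k)) z := fun k =>
    (Complex.conjCLE.differentiableAt).comp z ((hz1 k).restrictScalars ℝ)
  have hbS : Cov.dzbar S ξ z = ∑ k, star (G k z) * F z k := by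
    simp only [hS]
    rw [Cov.dzbar_sum _ fun k _ => (hdstar k).fun_mul ((hz1 k).restrictScalars ℝ)]
    refine Finset.sum_congr rfl fun k _ => ?_
    rw [Cov.dzbar_mul (hdstar k) ((hz1 k).restrictScalars ℝ), Cov.dzbar_star_hol (hz1 k),
      Cov.dzbar_hol (hz1 k), hdF z k hz2]
    ring
  have hbD : Cov.dzbar (fun w => ∑ k, star (F w k) * G k w) ξ z
      = ∑ k, star (G k z) * G k z := by
    rw [Cov.dzbar_sum _ fun k _ => (hdstar k).fun_mul ((hGd k).restrictScalars ℝ)]
    refine Finset.sum_congr rfl fun k _ => ?_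
    rw [Cov.dzbar_mul (hdstar k) ((hGd k).restrictScalars ℝ), Cov.dzbar_star_hol (hz1 k),
      Cov.dzbar_hol (hGd k), hdF z k hz2]
    ring
  -- derivatives of the reciprocal
  set u : Cn n → ℂ := fun w => (S w)⁻¹ with hu
  have hud : ∀ᶠ w in 𝓝 z, DifferentiableAt ℝ u w := by
    filter_upwards [hSd, hev] with w hw hw' using hw.inv hw'.2.2
  have hone : ∀ᶠ w in 𝓝 z, u w * S w = 1 := hev.mono fun w hw => inv_mul_cancel₀ hw.2.2
  have hinv : ∀ w, DifferentiableAt ℝ S w → DifferentiableAt ℝ u w → S w ≠ 0 →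
      (∀ᶠ v in 𝓝 w, u v * S v = 1) →
      Cov.dz u ξ w = -(u w * u w * Cov.dz S ξ w) ∧
        Cov.dzbar u ξ w = -(u w * u w * Cov.dzbar S ξ w) := fun w hSw huw hne' h1 => by
    have e1 := Cov.dz_congr (ξ := ξ) h1
    have e2 := Cov.dzbar_congr (ξ := ξ) h1
    rw [Cov.dz_mul huw hSw] at e1
    rw [Cov.dzbar_mul huw hSw] at e2
    have c1 : Cov.dz (fun _ : Cn n => (1 : ℂ)) ξ w = 0 := by simp [Cov.dz]
    have c2 : Cov.dzbar (fun _ : Cn n => (1 : ℂ)) ξ w = 0 := by simp [Cov.dzbar]
    rw [c1] at e1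
    rw [c2] at e2
    have hc : u w * S w = 1 := h1.self_of_nhds
    exact ⟨by linear_combination u w * e1 - Cov.dz u ξ w * hc,
      by linear_combination u w * e2 - Cov.dzbar u ξ w * hc⟩
  have hdzu : (fun w => Cov.dz u ξ w) =ᶠ[𝓝 z]
      fun w => -1 * (u w * u w * ∑ k, star (F w k) * G k w) := by
    filter_upwards [hSd, hud, hev, hone.eventually_nhds, hdzS] with w h1 h2 h3 h4 h5
    rw [(hinv w h1 h2 h3.2.2 h4).1, h5, neg_one_mul]
  have hAd : DifferentiableAt ℝ (fun w => ∑ k, star (F w k) * G k w) z :=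
    DifferentiableAt.fun_sum fun k _ => (hdstar k).fun_mul ((hGd k).restrictScalars ℝ)
  obtain ⟨hz3, hz4⟩ := hinv z hSd.self_of_nhds hud.self_of_nhds hz0 hone
  have hdd : Cov.dzbar (fun w => Cov.dz u ξ w) ξ z
      = -(2 * u z * Cov.dzbar u ξ z * (∑ k, star (F z k) * G k z)
          + u z * u z * ∑ k, star (G k z) * G k z) := by
    have huu := hud.self_of_nhds.fun_mul hud.self_of_nhds
    rw [Cov.dzbar_congr hdzu, Cov.dzbar_mul (differentiableAt_const _) (huu.fun_mul hAd),
      Cov.dzbar_mul huu hAd, Cov.dzbar_mul hud.self_of_nhds hud.self_of_nhds, hbD]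
    have c : Cov.dzbar (fun _ : Cn n => (-1 : ℂ)) ξ z = 0 := by simp [Cov.dzbar]
    rw [c]
    ring
  have hchern : Cov.chern (fun w => Matrix.of fun _ _ : Fin 1 => u w) ξ z 0 0
      = -Cov.dzbar (fun w => Cov.dz u ξ w) ξ z
        + Cov.dzbar u ξ z * (u z)⁻¹ * Cov.dz u ξ z := by
    simp [Cov.chern, Cov.dzM, Cov.dzbarM, Matrix.mul_apply, Matrix.inv_subsingleton]
  rw [show (fun w => Matrix.of fun _ _ : Fin 1 => (∑ k, star (F w k) * F w k)⁻¹)
    = fun w => Matrix.of fun _ _ : Fin 1 => u w from rfl, hchern, hdd, hz4, hz3,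
    hdzS.self_of_nhds, hbS]
  simp only [hu, hS, hG] at hz0 ⊢
  have hconj : star (∑ l, star (F z l) * fderiv ℂ F z ξ l)
      = ∑ l, star (fderiv ℂ F z ξ l) * F z l := by simp [star_sum, mul_comm]
  have hSreal : star (∑ l, star (F z l) * F z l) = ∑ l, star (F z l) * F z l := by
    simp [star_sum, mul_comm]
  generalize hA : (∑ l, star (F z l) * fderiv ℂ F z ξ l) = A at hconj ⊢
  generalize hT : (∑ l, star (F z l) * F z l) = T at hz0 hSreal ⊢
  have expand : ∀ k, star (fderiv ℂ F z ξ k - A / T * F z k) * (fderiv ℂ F z ξ k - A / T * F z k)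
      = star (fderiv ℂ F z ξ k) * fderiv ℂ F z ξ k
        - A / T * (star (fderiv ℂ F z ξ k) * F z k)
        - star A / T * (star (F z k) * fderiv ℂ F z ξ k)
        + star A / T * (A / T) * (star (F z k) * F z k) := fun k => by
    rw [star_sub, star_mul', star_div₀, hSreal]; ring
  simp only [expand, Finset.sum_add_distrib, Finset.sum_sub_distrib, ← Finset.mul_sum, hA, hT,
    ← hconj]
  field_simp
  ring

variable [IsManifold 𝓘(ℂ, Cn n) ω X]

/-- The Fubini–Study metric. -/
def ProjMap.metric : HermMetric f.bundle where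
  h a x := Matrix.of fun _ _ => (f.normSq' a x)⁻¹
  pos a x hx := by
    rw [show (Matrix.of fun _ _ : Fin 1 => (f.normSq' a x)⁻¹)
      = Matrix.diagonal fun _ => (f.normSq' a x)⁻¹ from by ext i j; fin_cases i; fin_cases j; simp]
    exact Matrix.PosDef.diagonal fun _ => inv_pos.2 (f.normSq'_pos a hx)
  compat a b x hx := by
    have h := f.ratio_spec hx
    have hne : f.ratio a b x ≠ 0 := fun h0 => f.ne_zero b x hx.2 (by rw [h, h0, zero_smul])
    have hs : f.normSq' b x = star (f.ratio a b x) * f.ratio a b x * f.normSq' a x := by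
      simp only [ProjMap.normSq', h, Pi.smul_apply, smul_eq_mul, star_mul', Finset.mul_sum]
      exact Finset.sum_congr rfl fun k _ => by ring
    erw [f.g_apply]
    ext i j
    fin_cases i; fin_cases j
    have hne' : (starRingEnd ℂ) (f.ratio a b x) ≠ 0 := by simpa using hne
    simp [hs, Matrix.mul_apply]
    field_simp
  smooth a i j p := by
    intro z hz
    refine ContDiffAt.contDiffWithinAt ?_
    have h : ∀ k, ContDiffAt ℝ ∞ (fun w => f.Φ a ((chartAt (Cn n) p).symm w) k) z := fun k =>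
      contDiffAt_real (f.isOpen_U a) (contMDiffOn_pi_space.1 (f.hol a) k) p hz.1 hz.2
    exact (ContDiffAt.sum fun k _ => (Complex.conjCLE.contDiff.contDiffAt.comp z (h k)).mul (h k)).inv
      (f.normSq'_pos a hz.2).ne'

/-- The bundle of an immersion in projective space has a Griffiths positive metric. -/
theorem ProjMap.metric_positive
    (himm : ∀ a, ∀ x ∈ f.U a, ∀ (ξ : Cn n) (t : ℂ),
      fderiv ℂ (f.Φ a ∘ (chartAt (Cn n) x).symm) (chartAt (Cn n) x x) ξ = t • f.Φ a x → ξ = 0) :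
    f.metric.GriffithsPositive := by
  intro a x hx ξ hξ v hv
  set e := chartAt (Cn n) x
  set F : Cn n → Fin N → ℂ := f.Φ a ∘ e.symm
  have hFx : F (e x) = f.Φ a x := congrArg (f.Φ a) (e.left_inv (mem_chart_source _ x))
  have hFa : AnalyticAt ℂ F (e x) := by
    have hc : ContMDiffAt 𝓘(ℂ, Cn n) 𝓘(ℂ, Cn n) ω e.symm (e x) :=
      contMDiffOn_chart_symm.contMDiffAt (e.open_target.mem_nhds (e.map_source (mem_chart_source _ x)))
    have hx' : e.symm (e x) ∈ f.U a := by rwa [e.left_inv (mem_chart_source _ x)]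
    exact (contMDiffAt_iff_contDiffAt.1 (((f.hol a).contMDiffAt
      ((f.isOpen_U a).mem_nhds hx')).comp (e x) hc)).analyticAt
  have hne : F (e x) ≠ 0 := by rw [hFx]; exact f.ne_zero a x hx
  set w : Fin N → ℂ := fun k => fderiv ℂ F (e x) ξ k - (∑ l, star (F (e x) l) * fderiv ℂ F (e x) ξ l)
          / (∑ l, star (F (e x) l) * F (e x) l) * F (e x) k
  have hw : w ≠ 0 := fun h0 => hξ (himm a x hx ξ ((∑ l, star (F (e x) l) * fderiv ℂ F (e x) ξ l)
      / (∑ l, star (F (e x) l) * F (e x) l)) (funext fun k => by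
    rw [← hFx, Pi.smul_apply, smul_eq_mul]
    exact sub_eq_zero.1 (congrFun h0 k)))
  have hc := chern_inv_normSq ξ hFa hne
  have hpos : 0 < chernForm (fun z => f.metric.h a (e.symm z)) ξ (e x) 0 0 := by
    rw [chernForm_eq_chern]
    refine lt_of_lt_of_eq ?_ hc.symm
    exact mul_pos (pow_pos (inv_pos.2 (dotProduct_star_self_pos_iff.2 hne)) 2)
      (dotProduct_star_self_pos_iff.2 hw)
  have hv0 : v 0 ≠ 0 := fun h => hv (funext fun i => by fin_cases i; simpa using h)
  have e1 : star v ⬝ᵥ (chernForm (fun z => f.metric.h a (e.symm z)) ξ (e x) *ᵥ v)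
      = star (v 0) * v 0 * chernForm (fun z => f.metric.h a (e.symm z)) ξ (e x) 0 0 := by
    simp [Matrix.mulVec, dotProduct]; ring
  have h2 : 0 < star v ⬝ᵥ (chernForm (fun z => f.metric.h a (e.symm z)) ξ (e x) *ᵥ v) := by
    rw [e1]
    refine mul_pos ?_ hpos
    rw [Complex.star_def, ← Complex.normSq_eq_conj_mul_self]
    exact Complex.zero_lt_real.2 (Complex.normSq_pos.2 hv0)
  exact (Complex.pos_iff.1 h2).1

end Proj

end Vale.Agent.P296
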