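import Mathlib

/-!
# A function with nonnegative Laplacian has the sub-mean value property

The rotational average about the centre, plus a small multiple of the square of the radius, has no
interior maximum: at such a point the sum of the four second differences would be positive.
-/

noncomputable section

namespace Vale.Agent.P296

open Metric Set Filter Topology

/-- The second derivative of `f` at `z`, twice in the direction `a`. -/
def d2 {E : Type*} [NormedAddCommGroup E] [NormedSpace ℝ E] {F : Type*} [NormedAddCommGroup F]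
    [NormedSpace ℝ F] (f : E → F) (z a : E) : F :=
  fderiv ℝ (fderiv ℝ f) z a a

/-- The Laplacian does not depend on the orthonormal frame. -/
lemma d2_rotate (f : ℂ → ℝ) (w a : ℂ) :
    d2 f w a + d2 f w (Complex.I * a) = ‖a‖ ^ 2 * (d2 f w 1 + d2 f w Complex.I) := by
  have ha : a = (a.re : ℝ) • (1 : ℂ) + (a.im : ℝ) • Complex.I :=
    Complex.ext (by simp) (by simp)
  have hIa : Complex.I * a = (-a.im : ℝ) • (1 : ℂ) + (a.re : ℝ) • Complex.I :=
    Complex.ext (by simp) (by simp)
  have hn : ‖a‖ ^ 2 = a.re * a.re + a.im * a.im := by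
    rw [Complex.sq_norm, Complex.normSq_apply]
  rw [hn, hIa]
  conv_lhs => rw [ha]
  simp only [d2, map_add, map_smul, add_apply, smul_apply, smul_eq_mul]
  simp
  ring

lemma continuousOn_d2 {U : Set ℂ} (hU : IsOpen U) {f : ℂ → ℝ} (hf : ContDiffOn ℝ 2 f U) :
    ContinuousOn (fun p : ℂ × ℂ => d2 f p.1 p.2) (U ×ˢ univ) := by
  have h1 : ContDiffOn ℝ 1 (fderiv ℝ f) U := hf.fderiv_of_isOpen hU (by norm_num)
  have h2 : ContinuousOn (fderiv ℝ (fderiv ℝ f)) U := h1.continuousOn_fderiv_of_isOpen hU le_rfl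
  have h3 : ContinuousOn (fun p : ℂ × ℂ => fderiv ℝ (fderiv ℝ f) p.1) (U ×ˢ univ) :=
    h2.comp continuous_fst.continuousOn fun p hp => hp.1
  exact (h3.clm_apply continuous_snd.continuousOn).clm_apply continuous_snd.continuousOn

lemma hasDerivAt_line {E F : Type*} [NormedAddCommGroup E] [NormedSpace ℝ E] [NormedAddCommGroup F]
    [NormedSpace ℝ F] {f : E → F} {w a : E} {t : ℝ} (hf : DifferentiableAt ℝ f (w + t • a)) :
    HasDerivAt (fun u : ℝ => f (w + u • a)) (fderiv ℝ f (w + t • a) a) t :=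
  hf.hasFDerivAt.comp_hasDerivAt t (by simpa using ((hasDerivAt_id t).smul_const a).const_add w)

lemma hasDerivAt_line₂ {E F : Type*} [NormedAddCommGroup E] [NormedSpace ℝ E] [NormedAddCommGroup F]
    [NormedSpace ℝ F] {f : E → F} {w a : E} {t : ℝ}
    (hf : DifferentiableAt ℝ (fderiv ℝ f) (w + t • a)) :
    HasDerivAt (fun u : ℝ => fderiv ℝ f (w + u • a) a) (d2 f (w + t • a) a) t := by
  simpa [d2] using (hasDerivAt_line hf).clm_apply (hasDerivAt_const t a)

/-- A symmetric second difference from a lower bound on the second derivative. -/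
lemma second_difference_ge {φ φ' φ'' : ℝ → ℝ} {s c : ℝ} (hs : 0 ≤ s)
    (h1 : ∀ t, |t| ≤ s → HasDerivAt φ (φ' t) t) (h2 : ∀ t, |t| ≤ s → HasDerivAt φ' (φ'' t) t)
    (hc : ∀ t, |t| ≤ s → c ≤ φ'' t) :
    s ^ 2 * c ≤ φ s + φ (-s) - 2 * φ 0 := by
  have habs : ∀ t ∈ Icc (0 : ℝ) s, |t| ≤ s ∧ |(-t)| ≤ s := fun t ht => by
    rw [abs_neg, abs_of_nonneg ht.1]; exact ⟨ht.2, ht.2⟩
  let g : ℝ → ℝ := fun t => φ t + φ (-t) - c * t ^ 2
  let g' : ℝ → ℝ := fun t => φ' t - φ' (-t) - c * (2 * t)
  have hg : ∀ t ∈ Icc (0 : ℝ) s, HasDerivAt g (g' t) t := fun t ht => by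
    have h := ((h1 t (habs t ht).1).add ((h1 (-t) (habs t ht).2).comp t (hasDerivAt_neg t))).sub
      (((hasDerivAt_id t).pow 2).const_mul c)
    simpa [g, g', sub_eq_add_neg, Function.comp_def, Pi.add_def, Pi.sub_def, mul_assoc] using h
  have hg' : ∀ t ∈ Icc (0 : ℝ) s, HasDerivAt g' (φ'' t + φ'' (-t) - 2 * c) t := fun t ht => by
    have h := ((h2 t (habs t ht).1).sub ((h2 (-t) (habs t ht).2).comp t (hasDerivAt_neg t))).sub
      (((hasDerivAt_id t).const_mul 2).const_mul c)
    simpa [g', sub_eq_add_neg, Function.comp_def, Pi.add_def, Pi.sub_def, mul_comm c 2] using h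
  have hmono' : MonotoneOn g' (Icc 0 s) :=
    monotoneOn_of_hasDerivWithinAt_nonneg (convex_Icc 0 s)
      (fun t ht => (hg' t ht).continuousAt.continuousWithinAt)
      (fun t ht => (hg' t (interior_subset ht)).hasDerivWithinAt)
      (fun t ht => by
        have := hc t (habs t (interior_subset ht)).1
        have := hc (-t) (habs t (interior_subset ht)).2
        linarith)
  have hmono : MonotoneOn g (Icc 0 s) :=
    monotoneOn_of_hasDerivWithinAt_nonneg (convex_Icc 0 s)
      (fun t ht => (hg t ht).continuousAt.continuousWithinAt)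
      (fun t ht => (hg t (interior_subset ht)).hasDerivWithinAt)
      (fun t ht => by
        have := hmono' ⟨le_rfl, hs⟩ (interior_subset ht) (interior_subset ht).1
        simpa [g'] using this)
  have := hmono ⟨le_rfl, hs⟩ ⟨hs, le_rfl⟩ hs
  simp only [g, neg_zero] at this
  linarith

/-- The second difference is bounded below by the second derivative, uniformly on compacts. -/
lemma exists_second_difference {U K : Set ℂ} (hU : IsOpen U) (hK : IsCompact K) (hKU : K ⊆ U)
    {f : ℂ → ℝ} (hf : ContDiffOn ℝ 2 f U) {η : ℝ} (hη : 0 < η) :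
    ∃ s₀ : ℝ, 0 < s₀ ∧ ∀ w ∈ K, ∀ a : ℂ, ‖a‖ = 1 → ∀ s : ℝ, 0 < s → s < s₀ →
      s ^ 2 * (d2 f w a - η) ≤ f (w + s • a) + f (w - s • a) - 2 * f w := by
  obtain ⟨r, hr, hrU⟩ := hK.exists_cthickening_subset_open hU hKU
  have hc : IsCompact (cthickening r K ×ˢ sphere (0 : ℂ) 1) :=
    hK.cthickening.prod (isCompact_sphere 0 1)
  obtain ⟨δ, hδ, huc⟩ := Metric.uniformContinuousOn_iff.1
    (hc.uniformContinuousOn_of_continuous ((continuousOn_d2 hU hf).mono
      (prod_mono hrU (subset_univ _)))) η hη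
  refine ⟨min r δ, lt_min hr hδ, fun w hw a ha s hs hss => ?_⟩
  have hn : ∀ t : ℝ, dist (w + t • a) w = |t| := fun t => by
    rw [dist_eq_norm, add_sub_cancel_left, norm_smul, ha, mul_one, Real.norm_eq_abs]
  have hmem : ∀ t : ℝ, |t| ≤ s → w + t • a ∈ cthickening r K := fun t ht =>
    mem_cthickening_of_dist_le _ w r K hw
      ((hn t).trans_le (ht.trans (hss.le.trans (min_le_left _ _))))
  have h1 : ContDiffOn ℝ 1 (fderiv ℝ f) U := hf.fderiv_of_isOpen hU (by norm_num)
  have := second_difference_ge (φ := fun u : ℝ => f (w + u • a))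
    (φ' := fun u : ℝ => fderiv ℝ f (w + u • a) a) (φ'' := fun u : ℝ => d2 f (w + u • a) a)
    (c := d2 f w a - η) hs.le
    (fun t ht => hasDerivAt_line
      ((hf.contDiffAt (hU.mem_nhds (hrU (hmem t ht)))).differentiableAt (by norm_num)))
    (fun t ht => hasDerivAt_line₂
      ((h1.contDiffAt (hU.mem_nhds (hrU (hmem t ht)))).differentiableAt (by norm_num)))
    (fun t ht => by
      have h := huc (w + t • a, a) ⟨hmem t ht, by simp [ha]⟩ (w, a)
        ⟨self_subset_cthickening K hw, by simp [ha]⟩ (by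
          rw [Prod.dist_eq, dist_self]
          exact max_lt ((hn t).trans_lt (lt_of_le_of_lt ht (hss.trans_le (min_le_right _ _)))) hδ)
      rw [Real.dist_eq] at h
      linarith [(abs_lt.1 h).1])
  simpa [neg_smul, ← sub_eq_add_neg] using this

/-- A function with nonnegative Laplacian is at most its average on circles around the point. -/
theorem le_circleAverage_of_d2 {U : Set ℂ} (hU : IsOpen U) {f : ℂ → ℝ} (hf : ContDiffOn ℝ 2 f U)
    {c : ℂ} {R : ℝ} (hR : 0 ≤ R) (hball : closedBall c R ⊆ U)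
    (hlap : ∀ w ∈ U, 0 ≤ d2 f w 1 + d2 f w Complex.I) :
    f c ≤ Real.circleAverage f c R := by
  refine le_of_forall_pos_le_add fun ε hε => ?_
  set e : ℝ := ε / (R ^ 2 + 1)
  have he : 0 < e := by positivity
  let rot : ℂ → ℝ → ℂ := fun z θ => c + z * circleMap 0 1 θ
  let u : ℂ → ℝ := fun z => Real.circleAverage (fun ζ => f (c + z * ζ)) 0 1
  have hmemU : ∀ z : ℂ, ‖z‖ ≤ R → ∀ θ : ℝ, rot z θ ∈ U := fun z hz θ => hball (by
    simp [rot, mem_closedBall, dist_eq_norm, hz])
  have hint : ∀ z : ℂ, ‖z‖ ≤ R → Continuous fun θ => f (rot z θ) := fun z hz =>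
    hf.continuousOn.comp_continuous (by fun_prop) fun θ => hmemU z hz θ
  have hu : ContinuousOn u (closedBall 0 R) := by
    have h1 : ContinuousOn (fun z => ∫ θ in (0 : ℝ)..2 * Real.pi, f (rot z θ))
        (closedBall 0 R) := by
      rw [continuousOn_iff_continuous_domRestrict]
      refine intervalIntegral.continuous_parametric_intervalIntegral_of_continuous'
        (f := fun (z : closedBall (0 : ℂ) R) θ => f (rot z θ)) ?_ _ _
      exact hf.continuousOn.comp_continuous (by fun_prop) fun p =>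
        hmemU _ (mem_closedBall_zero_iff.1 p.1.2) _
    exact h1.const_smul (2 * Real.pi)⁻¹
  have hu0 : u 0 = f c := by simp [u, Real.circleAverage_const]
  have hu1 : ∀ z : ℂ, ‖z‖ = R → u z = Real.circleAverage f c R := fun z hz => by
    rw [show u z = Real.circleAverage (fun ζ => f (c + z * ζ)) 0 1 from rfl,
      Real.circleAverage_eq_circleAverage_zero_one (f := f) (c := c) (R := R)]
    show Real.circleAverage (fun ζ => f (c + z * ζ)) 0 1 = _
    rw [Real.circleAverage_eq_intervalAverage, Real.circleAverage_eq_intervalAverage,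
      interval_average_eq, interval_average_eq]
    congr 1
    obtain ⟨φ, hφ⟩ : ∃ φ : ℝ, z = R * Complex.exp (φ * Complex.I) :=
      ⟨Complex.arg z, by rw [← hz]; exact (Complex.norm_mul_exp_arg_mul_I z).symm⟩
    have hper : Function.Periodic (fun θ : ℝ => f (c + (R : ℂ) * circleMap 0 1 θ)) (2 * Real.pi) :=
      fun θ => by simp only [periodic_circleMap 0 1 θ]
    calc (∫ θ in (0 : ℝ)..2 * Real.pi, f (c + z * circleMap 0 1 θ))
        = ∫ θ in (0 : ℝ)..2 * Real.pi, f (c + (R : ℂ) * circleMap 0 1 (θ + φ)) := by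
          refine intervalIntegral.integral_congr fun θ _ => ?_
          simp only [circleMap, hφ, Complex.ofReal_add, add_mul, Complex.exp_add]
          ring_nf
      _ = ∫ θ in (0 : ℝ)..2 * Real.pi, f (c + (R : ℂ) * circleMap 0 1 θ) := by
          rw [intervalIntegral.integral_comp_add_right (fun θ => f (c + (R : ℂ) * circleMap 0 1 θ)),
            add_comm (2 * Real.pi), zero_add, hper.intervalIntegral_add_eq φ 0, zero_add]
      _ = _ := intervalIntegral.integral_congr fun θ _ => by
          simp [circleMap, add_comm]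
  obtain ⟨z, hz, hmax⟩ := (isCompact_closedBall (0 : ℂ) R).exists_isMaxOn
    ⟨0, mem_closedBall_self hR⟩ (hu.add (f := u) (g := fun z => e * ‖z‖ ^ 2) (by fun_prop))
  rw [mem_closedBall_zero_iff] at hz
  have hmax' : ∀ y : ℂ, ‖y‖ ≤ R → u y + e * ‖y‖ ^ 2 ≤ u z + e * ‖z‖ ^ 2 :=
    fun y hy => hmax (mem_closedBall_zero_iff.2 hy)
  rcases hz.eq_or_lt with hzR | hzR
  · have h := hmax' 0 (by simpa using hR)
    rw [hu0, hu1 z hzR, hzR, norm_zero] at h
    have h2 : e * R ^ 2 ≤ ε := by
      rw [div_mul_eq_mul_div, div_le_iff₀ (by positivity)]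
      nlinarith
    simpa using h.trans (by linarith)
  exfalso
  obtain ⟨s₀, hs₀, hsd⟩ := exists_second_difference hU (isCompact_closedBall c ‖z‖)
    ((closedBall_subset_closedBall hzR.le).trans hball) hf (half_pos he)
  obtain ⟨s, hs, hss⟩ := exists_between (lt_min hs₀ (sub_pos.2 hzR))
  have hsR : ∀ b : ℂ, ‖b‖ = 1 → ‖z + (s : ℂ) * b‖ ≤ R ∧ ‖z - (s : ℂ) * b‖ ≤ R := fun b hb => by
    have : ‖(s : ℂ) * b‖ ≤ R - ‖z‖ := by
      rw [norm_mul, hb, mul_one, Complex.norm_real, Real.norm_of_nonneg hs.le]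
      exact hss.le.trans (min_le_right _ _)
    constructor
    · linarith [norm_add_le z ((s : ℂ) * b)]
    · linarith [norm_sub_le z ((s : ℂ) * b)]
  have hI : ‖(Complex.I : ℂ)‖ = 1 := Complex.norm_I
  have havg : ∀ y : ℂ, ‖y‖ ≤ R →
      u y = (2 * Real.pi)⁻¹ * ∫ θ in (0 : ℝ)..2 * Real.pi, f (rot y θ) := fun _ _ => rfl
  have hkey : ∀ θ : ℝ, -(e * s ^ 2) ≤
      (f (rot (z + (s : ℂ) * 1) θ) + f (rot (z - (s : ℂ) * 1) θ)) +
        (f (rot (z + (s : ℂ) * Complex.I) θ) + f (rot (z - (s : ℂ) * Complex.I) θ)) -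
        4 * f (rot z θ) := fun θ => by
    set q := circleMap 0 1 θ
    have hq : ‖q‖ = 1 := by simp [q]
    have hw : rot z θ ∈ closedBall c ‖z‖ := by
      simp [rot, mem_closedBall, dist_eq_norm]
    have hl : 0 ≤ d2 f (rot z θ) 1 + d2 f (rot z θ) Complex.I := hlap _ (hmemU z hz θ)
    have h1 := hsd _ hw q hq s hs (hss.trans_le (min_le_left _ _))
    have h2 := hsd _ hw (Complex.I * q) (by simp [hq]) s hs (hss.trans_le (min_le_left _ _))
    have hr := d2_rotate f (rot z θ) q
    rw [hq, one_pow, one_mul] at hr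
    have e1 : rot z θ + s • q = rot (z + (s : ℂ) * 1) θ := by
      simp only [rot, Complex.real_smul, q]; ring
    have e2 : rot z θ - s • q = rot (z - (s : ℂ) * 1) θ := by
      simp only [rot, Complex.real_smul, q]; ring
    have e3 : rot z θ + s • (Complex.I * q) = rot (z + (s : ℂ) * Complex.I) θ := by
      simp only [rot, Complex.real_smul, q]; ring
    have e4 : rot z θ - s • (Complex.I * q) = rot (z - (s : ℂ) * Complex.I) θ := by
      simp only [rot, Complex.real_smul, q]; ring
    rw [e1, e2] at h1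
    rw [e3, e4] at h2
    nlinarith [sq_nonneg s]
  have i1 := (hint _ (hsR 1 norm_one).1).intervalIntegrable (μ := MeasureTheory.volume) 0 (2 * Real.pi)
  have i2 := (hint _ (hsR 1 norm_one).2).intervalIntegrable (μ := MeasureTheory.volume) 0 (2 * Real.pi)
  have i3 := (hint _ (hsR _ hI).1).intervalIntegrable (μ := MeasureTheory.volume) 0 (2 * Real.pi)
  have i4 := (hint _ (hsR _ hI).2).intervalIntegrable (μ := MeasureTheory.volume) 0 (2 * Real.pi)
  have i5 := (hint z hz).intervalIntegrable (μ := MeasureTheory.volume) 0 (2 * Real.pi)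
  have hI5 := intervalIntegral.integral_mono_on (μ := MeasureTheory.volume)
    (by positivity : (0 : ℝ) ≤ 2 * Real.pi) intervalIntegrable_const
    (((i1.add i2).add (i3.add i4)).sub (i5.const_mul 4)) fun θ _ => hkey θ
  rw [intervalIntegral.integral_const, intervalIntegral.integral_sub ((i1.add i2).add (i3.add i4))
      (i5.const_mul 4), intervalIntegral.integral_add (i1.add i2) (i3.add i4),
    intervalIntegral.integral_add i1 i2, intervalIntegral.integral_add i3 i4,
    intervalIntegral.integral_const_mul, smul_eq_mul, sub_zero] at hI5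
  have hpi : (0 : ℝ) < 2 * Real.pi := by positivity
  have hmul := mul_le_mul_of_nonneg_left hI5 (inv_nonneg.2 hpi.le)
  rw [← mul_assoc, inv_mul_cancel₀ hpi.ne', one_mul] at hmul
  have m1 := hmax' _ (hsR 1 norm_one).1
  have m2 := hmax' _ (hsR 1 norm_one).2
  have m3 := hmax' _ (hsR _ hI).1
  have m4 := hmax' _ (hsR _ hI).2
  rw [havg _ (hsR 1 norm_one).1, havg z hz] at m1
  rw [havg _ (hsR 1 norm_one).2, havg z hz] at m2
  rw [havg _ (hsR _ hI).1, havg z hz] at m3
  rw [havg _ (hsR _ hI).2, havg z hz] at m4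
  have hsq : ∀ b : ℂ, ‖b‖ = 1 →
      ‖z + (s : ℂ) * b‖ ^ 2 + ‖z - (s : ℂ) * b‖ ^ 2 = 2 * (‖z‖ ^ 2 + s ^ 2) := fun b hb => by
    rw [Complex.sq_norm, Complex.sq_norm, Complex.sq_norm, Complex.normSq_add, Complex.normSq_sub,
      Complex.normSq_mul, Complex.normSq_ofReal, show Complex.normSq b = 1 by
        rw [← Complex.sq_norm, hb, one_pow]]
    ring
  have q1 := hsq 1 norm_one
  have q2 := hsq _ hI
  have : 0 < e * s ^ 2 := by positivity
  nlinarith

end Vale.Agent.P296
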