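import Vale.Agent.P296.Proj.Inst
import Vale.Agent.P296.Ample.BridgeModel
import Vale.Agent.P296.NoMetric.Bridge
import Vale.Agent.P296.NoMetric.Main

/-!
# P296: assembly with the proved bridges

The remaining parameters are the targets not yet proved; this file is not a result by itself.
-/

noncomputable section

namespace Vale.Agent.P296.Assembly

/-- The assembly with everything but the embedding upstairs filled in. -/
theorem griffithsFails_of_targets (hS : EmbedsTarget) :
    GriffithsFails :=
  griffithsFails_of (fun h => NoMetric.eventually_not_posFamily h) hS NoMetric.metricBridge ampleBridge Proj.projective

end Vale.Agent.P296.Assembly
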